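import Vale.Agent.P166N.Spectrum.Resolvent

/-!
The Marchenko-Pastur law.
-/

namespace Vale.Agent.P166N.Spectrum

open MeasureTheory Set intervalIntegral
open scoped Real Interval

lemma integral_inv_cos {A R : ℝ} (hR : 0 ≤ R) (hA : R < A) :
    ∫ θ in (0 : ℝ)..π, 1 / (A - R * Real.cos θ) = π / Real.sqrt (A ^ 2 - R ^ 2) := by
  set K := Real.sqrt (A ^ 2 - R ^ 2)
  have hK : 0 < K := Real.sqrt_pos.2 (by nlinarith)
  have hK2 : K ^ 2 = A ^ 2 - R ^ 2 := Real.sq_sqrt (by nlinarith)
  have hAK : 0 < A + K := by linarith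
  set q := R / (A + K) with hq
  have hq0 : 0 ≤ q := by positivity
  have hq1 : q < 1 := by rw [hq, div_lt_one hAK]; linarith
  have hd : ∀ θ, 0 < 1 - q * Real.cos θ := fun θ => by
    nlinarith [mul_le_mul_of_nonneg_left (Real.cos_le_one θ) hq0]
  have hden : ∀ θ, 0 < A - R * Real.cos θ := fun θ => by
    nlinarith [mul_le_mul_of_nonneg_left (Real.cos_le_one θ) hR]
  have hder : ∀ θ, HasDerivAt
      (fun θ => (θ + 2 * Real.arctan (q * Real.sin θ / (1 - q * Real.cos θ))) / K)
      (1 / (A - R * Real.cos θ)) θ := fun θ => by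
    have h1 : HasDerivAt (fun θ => q * Real.sin θ / (1 - q * Real.cos θ))
        ((q * Real.cos θ * (1 - q * Real.cos θ) - q * Real.sin θ * -(q * -Real.sin θ)) /
          (1 - q * Real.cos θ) ^ 2) θ :=
      ((Real.hasDerivAt_sin θ).const_mul q).fun_div
        (((Real.hasDerivAt_cos θ).const_mul q).const_sub 1) (hd θ).ne'
    refine (((hasDerivAt_id θ).add (h1.arctan.const_mul 2)).div_const K).congr_deriv ?_
    have hs := Real.sin_sq_add_cos_sq θ
    have e1 : 0 < (1 - q * Real.cos θ) ^ 2 + (q * Real.sin θ) ^ 2 := by positivity [hd θ]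
    have e2 : (1 : ℝ) + (q * Real.sin θ / (1 - q * Real.cos θ)) ^ 2 =
        (1 - 2 * q * Real.cos θ + q ^ 2) / (1 - q * Real.cos θ) ^ 2 := by
      have := (hd θ).ne'
      field_simp
      linear_combination q ^ 2 * hs
    have e3 : q * Real.cos θ * (1 - q * Real.cos θ) - q * Real.sin θ * -(q * -Real.sin θ) =
        q * Real.cos θ - q ^ 2 := by linear_combination (-q ^ 2) * hs
    have e4 : 0 < 1 - 2 * q * Real.cos θ + q ^ 2 := by
      nlinarith [mul_le_mul_of_nonneg_left (Real.cos_le_one θ) hq0]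
    have hqK : (1 - q ^ 2) * A = K * (1 + q ^ 2) := by
      rw [hq]; field_simp; linear_combination (-(K + A)) * hK2
    have hqR : (1 - q ^ 2) * R = 2 * K * q := by
      rw [hq]; field_simp; linear_combination (-R) * hK2
    have h0 := (hd θ).ne'
    have h5 := e4.ne'
    have h6 := (hden θ).ne'
    have h7 : 1 + 2 * (1 / (1 + (q * Real.sin θ / (1 - q * Real.cos θ)) ^ 2) *
        ((q * Real.cos θ - q ^ 2) / (1 - q * Real.cos θ) ^ 2)) =
        (1 - q ^ 2) / (1 - 2 * q * Real.cos θ + q ^ 2) := by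
      rw [e2]; field_simp; ring
    rw [e3, h7, div_div, div_eq_div_iff (mul_ne_zero h5 hK.ne') h6]
    linear_combination hqK - Real.cos θ * hqR
  have hc : Continuous fun θ : ℝ => 1 / (A - R * Real.cos θ) :=
    continuous_const.div (by fun_prop) fun θ => (hden θ).ne'
  rw [integral_eq_sub_of_hasDerivAt (fun θ _ => hder θ) (hc.intervalIntegrable _ _)]
  simp

/-- The semicircle over a translate. -/
noncomputable def semiDiv (c R A x : ℝ) : ℝ := Real.sqrt (R ^ 2 - (x - c) ^ 2) / (x - c + A)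

lemma semiDiv_facts (c : ℝ) {A R : ℝ} (hR : 0 < R) (hA : R ≤ A) :
    IntervalIntegrable (semiDiv c R A) volume (c - R) (c + R) ∧
      ∫ x in (c - R)..(c + R), semiDiv c R A x = π * (A - Real.sqrt (A ^ 2 - R ^ 2)) := by
  set f := fun θ : ℝ => c - R * Real.cos θ
  set f' := fun θ : ℝ => R * Real.sin θ
  set h := fun θ : ℝ => A + R * Real.cos θ - (A ^ 2 - R ^ 2) * (1 / (A - R * Real.cos θ))
  have hfd : ∀ θ, HasDerivAt f (f' θ) θ := fun θ =>
    (((Real.hasDerivAt_cos θ).const_mul R).const_sub c).congr_deriv (by simp [f'])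
  have hfc : ContinuousOn f [[(0 : ℝ), π]] := fun θ _ => (hfd θ).continuousAt.continuousWithinAt
  have hf0 : ∀ θ ∈ Ioo (min (0 : ℝ) π) (max 0 π), 0 ≤ f' θ := fun θ hθ => by
    rw [min_eq_left Real.pi_pos.le, max_eq_right Real.pi_pos.le] at hθ
    exact mul_nonneg hR.le (Real.sin_nonneg_of_mem_Icc ⟨hθ.1.le, hθ.2.le⟩)
  have he : ∀ θ ∈ Ioc (0 : ℝ) π, (semiDiv c R A ∘ f) θ * f' θ = h θ := fun θ hθ => by
    have hs : 0 ≤ Real.sin θ := Real.sin_nonneg_of_mem_Icc ⟨hθ.1.le, hθ.2⟩
    have hcl : Real.cos θ < 1 := by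
      have := Real.cos_lt_cos_of_nonneg_of_le_pi (x := 0) le_rfl hθ.2 hθ.1
      simpa using this
    have hden : 0 < A - R * Real.cos θ := by nlinarith
    have hsq : R ^ 2 - (f θ - c) ^ 2 = (R * Real.sin θ) ^ 2 := by
      simp only [f]; linear_combination (-R ^ 2) * Real.sin_sq_add_cos_sq θ
    simp only [semiDiv, Function.comp_apply, hsq, Real.sqrt_sq (mul_nonneg hR.le hs), f', h, f,
      show c - R * Real.cos θ - c + A = A - R * Real.cos θ by ring]
    field_simp
    linear_combination R ^ 2 * Real.sin_sq_add_cos_sq θ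
  have hce : f 0 = c - R ∧ f π = c + R := by simp [f, sub_neg_eq_add]
  have hae : ∀ᵐ θ ∂(volume : Measure ℝ), θ ∈ Ι (0 : ℝ) π →
      (semiDiv c R A ∘ f) θ * f' θ = h θ := Filter.Eventually.of_forall fun θ hθ => by
    rw [uIoc_of_le Real.pi_pos.le] at hθ; exact he θ hθ
  have hint : IntervalIntegrable h volume 0 π := by
    rcases eq_or_lt_of_le hA with e | hlt
    · have : h = fun θ => A + R * Real.cos θ := funext fun θ => by simp [h, e]
      rw [this]; exact Continuous.intervalIntegrable (by fun_prop) _ _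
    · refine Continuous.intervalIntegrable ?_ _ _
      exact (by fun_prop : Continuous fun θ : ℝ => A + R * Real.cos θ).sub
        (continuous_const.mul (continuous_const.div (by fun_prop) fun θ =>
          (by nlinarith [mul_le_mul_of_nonneg_left (Real.cos_le_one θ) hR.le] :
            (0 : ℝ) < A - R * Real.cos θ).ne'))
  have hI := (integrable_comp_mul_deriv_iff_of_deriv_nonneg (g := semiDiv c R A) hfc
    (fun θ _ => hfd θ) hf0).1 (hint.congr_ae (by
      rw [Filter.EventuallyEq, ae_restrict_iff' measurableSet_uIoc]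
      exact hae.mono fun θ h hθ => (h hθ).symm))
  rw [hce.1, hce.2] at hI
  refine ⟨hI, ?_⟩
  have e := integral_comp_mul_deriv_of_deriv_nonneg (g := semiDiv c R A) hfc (fun θ _ => hfd θ) hf0
  rw [hce.1, hce.2] at e
  rw [← e, integral_congr_ae hae]
  rcases eq_or_lt_of_le hA with e | hlt
  · simp only [h, ← e, sub_self, zero_mul, sub_zero, Real.sqrt_zero]
    rw [intervalIntegral.integral_add intervalIntegrable_const
      (Continuous.intervalIntegrable (by fun_prop) _ _)]
    simp
  · have hc1 : IntervalIntegrable (fun θ : ℝ => 1 / (A - R * Real.cos θ)) volume 0 π :=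
      (continuous_const.div (by fun_prop) fun θ =>
        (by nlinarith [mul_le_mul_of_nonneg_left (Real.cos_le_one θ) hR.le] :
          (0 : ℝ) < A - R * Real.cos θ).ne').intervalIntegrable _ _
    simp only [h]
    rw [intervalIntegral.integral_sub (Continuous.intervalIntegrable (by fun_prop) _ _)
      (hc1.const_mul _), intervalIntegral.integral_const_mul, integral_inv_cos hR.le hlt,
      intervalIntegral.integral_add intervalIntegrable_const
        (Continuous.intervalIntegrable (by fun_prop) _ _)]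
    simp only [intervalIntegral.integral_const, intervalIntegral.integral_const_mul, integral_cos,
      Real.sin_pi, Real.sin_zero, sub_zero, mul_zero, add_zero, smul_eq_mul]
    rw [mul_div_assoc', mul_comm _ π, mul_div_assoc, Real.div_sqrt]
    ring

/-- The lower edge. -/
noncomputable def mpLo (α : ℝ) : ℝ := (1 - Real.sqrt α) ^ 2

/-- The upper edge. -/
noncomputable def mpHi (α : ℝ) : ℝ := (1 + Real.sqrt α) ^ 2

/-- The density of the continuous part. -/
noncomputable def mpDens (α x : ℝ) : ℝ :=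
  Real.sqrt ((mpHi α - x) * (x - mpLo α)) / (2 * π * x)

/-- The Marchenko-Pastur law at ratio `α`: an atom `1 - α` at `0` and a continuous part. -/
noncomputable def mp (α : ℝ) : Measure ℝ :=
  ENNReal.ofReal (1 - α) • Measure.dirac 0 +
    (volume.restrict (Icc (mpLo α) (mpHi α))).withDensity fun x => ENNReal.ofReal (mpDens α x)

/-- The Stieltjes transform of the law at `-s`. -/
noncomputable def mpR (α s : ℝ) : ℝ :=
  (1 - α - s + Real.sqrt ((1 + α + s) ^ 2 - 4 * α)) / (2 * s)

variable {α : ℝ}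

lemma edges (hα : 0 ≤ α) : mpLo α = 1 + α - 2 * Real.sqrt α ∧ mpHi α = 1 + α + 2 * Real.sqrt α := by
  have := Real.mul_self_sqrt hα
  constructor <;> simp only [mpLo, mpHi] <;> linear_combination this

lemma mpLo_nonneg (α : ℝ) : 0 ≤ mpLo α := sq_nonneg _

lemma mpLo_lt_hi (hα : 0 < α) : mpLo α < mpHi α := by
  obtain ⟨h1, h2⟩ := edges hα.le
  have := Real.sqrt_pos.2 hα
  linarith

lemma mpDens_eq (hα : 0 ≤ α) (x : ℝ) :
    mpDens α x = semiDiv (1 + α) (2 * Real.sqrt α) (1 + α) x / (2 * π) := by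
  obtain ⟨h1, h2⟩ := edges hα
  rw [mpDens, semiDiv, h1, h2, sub_add_cancel, div_div, mul_comm x (2 * π)]
  congr 2
  ring

lemma mpDens_nonneg {x : ℝ} (hx : 0 ≤ x) : 0 ≤ mpDens α x :=
  div_nonneg (Real.sqrt_nonneg _) (by positivity)

lemma measurable_mpDens (α : ℝ) : Measurable (mpDens α) := by unfold mpDens; fun_prop

lemma integrableOn_mpDens (hα : 0 < α) :
    IntegrableOn (mpDens α) (Icc (mpLo α) (mpHi α)) := by
  obtain ⟨h1, h2⟩ := edges hα.le
  have hR : 0 < 2 * Real.sqrt α := by positivity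
  have := ((semiDiv_facts (1 + α) hR (A := 1 + α)
    (by nlinarith [Real.mul_self_sqrt hα.le, sq_nonneg (1 - Real.sqrt α)])).1).div_const (2 * π)
  rw [intervalIntegrable_iff_integrableOn_Icc_of_le (by linarith), ← h1, ← h2] at this
  exact this.congr_fun (fun x _ => (mpDens_eq hα.le x).symm) measurableSet_Icc

/-- The lower edge of the support. -/
noncomputable def edgeLo (α : ℝ) : ℝ := if α ≤ 1 then 0 else mpLo α

lemma edgeLo_facts (hα : 0 < α) : 0 ≤ edgeLo α ∧ edgeLo α ≤ mpLo α ∧ edgeLo α < mpHi α := by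
  have h := mpLo_lt_hi hα
  have := mpLo_nonneg α
  unfold edgeLo
  split_ifs <;> refine ⟨?_, ?_, ?_⟩ <;> linarith

/-- Integration against the law. -/
lemma integral_mp (hα : 0 < α) {φ : ℝ → ℝ} (hφ : Measurable φ) {C : ℝ}
    (hC : ∀ x, 0 ≤ x → |φ x| ≤ C) :
    Integrable φ (mp α) ∧
      ∫ x, φ x ∂mp α = max (1 - α) 0 * φ 0 + ∫ x in Icc (mpLo α) (mpHi α), mpDens α x * φ x := by
  set D := (volume.restrict (Icc (mpLo α) (mpHi α))).withDensity fun x => ENNReal.ofReal (mpDens α x)
  have hnn : ∀ᵐ x ∂volume.restrict (Icc (mpLo α) (mpHi α)), (0 : ℝ) ≤ mpDens α x :=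
    (ae_restrict_mem measurableSet_Icc).mono fun x hx => mpDens_nonneg ((mpLo_nonneg α).trans hx.1)
  have hi2 : Integrable φ D := by
    refine (integrable_withDensity_iff_integrable_smul'
      (measurable_mpDens α).ennreal_ofReal (Filter.Eventually.of_forall fun x => ENNReal.ofReal_lt_top)).2 ?_
    refine ((integrableOn_mpDens hα).mul_const C).mono'
      (((measurable_mpDens α).ennreal_ofReal.ennreal_toReal).mul hφ).aestronglyMeasurable ?_
    filter_upwards [hnn, ae_restrict_mem measurableSet_Icc] with x hx hxm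
    rw [ENNReal.toReal_ofReal hx, smul_eq_mul, Real.norm_eq_abs, abs_mul, abs_of_nonneg hx]
    exact mul_le_mul_of_nonneg_left (hC x ((mpLo_nonneg α).trans hxm.1)) hx
  have hi1 : Integrable φ (ENNReal.ofReal (1 - α) • Measure.dirac (0 : ℝ)) :=
    (integrable_dirac (by simp)).smul_measure ENNReal.ofReal_ne_top
  refine ⟨integrable_add_measure.2 ⟨hi1, hi2⟩, ?_⟩
  rw [mp, integral_add_measure hi1 hi2, MeasureTheory.integral_smul_measure, integral_dirac,
    ENNReal.toReal_ofReal',
    integral_withDensity_eq_integral_toReal_smul (measurable_mpDens α).ennreal_ofReal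
      (Filter.Eventually.of_forall fun x => ENNReal.ofReal_lt_top)]
  rw [smul_eq_mul]
  congr 1
  exact integral_congr_ae (hnn.mono fun x hx => by
    simp only [ENNReal.toReal_ofReal hx, smul_eq_mul])

lemma integral_mpDens (hα : 0 < α) : ∫ x in Icc (mpLo α) (mpHi α), mpDens α x = min α 1 := by
  obtain ⟨h1, h2⟩ := edges hα.le
  have hs := Real.mul_self_sqrt hα.le
  have hR : 0 < 2 * Real.sqrt α := by positivity
  have hle : 2 * Real.sqrt α ≤ 1 + α := by nlinarith [sq_nonneg (1 - Real.sqrt α)]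
  simp only [mpDens_eq hα.le, MeasureTheory.integral_div]
  rw [integral_Icc_eq_integral_Ioc, ← intervalIntegral.integral_of_le (mpLo_lt_hi hα).le, h1, h2,
    (semiDiv_facts (1 + α) hR hle).2,
    show (1 + α) ^ 2 - (2 * Real.sqrt α) ^ 2 = (1 - α) ^ 2 by linear_combination (-4) * hs,
    Real.sqrt_sq_eq_abs]
  field_simp
  rcases le_total α 1 with h | h
  · rw [abs_of_nonneg (by linarith), min_eq_left h]; ring
  · rw [abs_of_nonpos (by linarith), min_eq_right h]; ring

lemma isProbabilityMeasure_mp (hα : 0 < α) : IsProbabilityMeasure (mp α) := by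
  refine ⟨?_⟩
  rw [mp, Measure.add_apply, Measure.smul_apply, withDensity_apply _ MeasurableSet.univ,
    Measure.restrict_univ, ← ofReal_integral_eq_lintegral_ofReal (integrableOn_mpDens hα)
      ((ae_restrict_mem measurableSet_Icc).mono fun x hx => mpDens_nonneg ((mpLo_nonneg α).trans hx.1)),
    integral_mpDens hα]
  rcases le_total α 1 with h | h
  · simp [min_eq_left h, ← ENNReal.ofReal_add (sub_nonneg.2 h) hα.le]
  · simp [min_eq_right h, ENNReal.ofReal_of_nonpos (sub_nonpos.2 h)]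

/-- The Stieltjes transform. -/
lemma integral_mp_inv (hα : 0 < α) {s : ℝ} (hs : 0 < s) :
    ∫ x, (max x 0 + s)⁻¹ ∂mp α = mpR α s := by
  obtain ⟨h1, h2⟩ := edges hα.le
  have hsq := Real.mul_self_sqrt hα.le
  have hR : 0 < 2 * Real.sqrt α := by positivity
  have hle : 2 * Real.sqrt α ≤ 1 + α := by nlinarith [sq_nonneg (1 - Real.sqrt α)]
  rw [(integral_mp hα (φ := fun x => (max x 0 + s)⁻¹) (by fun_prop) (C := s⁻¹) fun x _ => by
    rw [abs_of_pos (by positivity)]
    exact inv_anti₀ hs (by linarith [le_max_right x 0])).2]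
  obtain ⟨i1, e1⟩ := semiDiv_facts (1 + α) hR hle
  obtain ⟨i2, e2⟩ := semiDiv_facts (1 + α) hR (A := 1 + α + s) (by linarith)
  have hae : ∀ x ∈ Icc (mpLo α) (mpHi α), x ≠ 0 → mpDens α x * (max x 0 + s)⁻¹ =
      (semiDiv (1 + α) (2 * Real.sqrt α) (1 + α) x -
        semiDiv (1 + α) (2 * Real.sqrt α) (1 + α + s) x) / (2 * π * s) := fun x hx hx0 => by
    have hp : 0 < x := lt_of_le_of_ne ((mpLo_nonneg α).trans hx.1) (Ne.symm hx0)
    rw [mpDens_eq hα.le, max_eq_left hp.le]
    simp only [semiDiv, sub_add_cancel, show x - (1 + α) + (1 + α + s) = x + s by ring]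
    field_simp
    ring
  rw [setIntegral_congr_ae measurableSet_Icc (g := fun x => (semiDiv (1 + α) (2 * Real.sqrt α) (1 + α) x -
        semiDiv (1 + α) (2 * Real.sqrt α) (1 + α + s) x) / (2 * π * s))
    ((Measure.ae_ne volume 0).mono fun x hx0 hx => hae x hx hx0),
    integral_Icc_eq_integral_Ioc, ← intervalIntegral.integral_of_le (mpLo_lt_hi hα).le, h1, h2,
    intervalIntegral.integral_div, intervalIntegral.integral_sub i1 i2, e1, e2,
    show (1 + α) ^ 2 - (2 * Real.sqrt α) ^ 2 = (1 - α) ^ 2 by linear_combination (-4) * hsq,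
    show (1 + α + s) ^ 2 - (2 * Real.sqrt α) ^ 2 = (1 + α + s) ^ 2 - 4 * α by
      linear_combination (-4) * hsq,
    Real.sqrt_sq_eq_abs, mpR]
  simp only [max_self, zero_add]
  rcases le_total α 1 with h | h
  · rw [abs_of_nonneg (by linarith), max_eq_left (sub_nonneg.2 h)]
    field_simp
    ring
  · rw [abs_of_nonpos (by linarith), max_eq_right (sub_nonpos.2 h)]
    field_simp
    ring

/-- The transform solves the self-consistency equation. -/
lemma mpF_mpR (hα : 0 < α) {s : ℝ} (hs : 0 < s) : 0 ≤ mpR α s ∧ mpF α s (mpR α s) = 0 := by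
  set q := Real.sqrt ((1 + α + s) ^ 2 - 4 * α) with hq
  have h0 : 0 ≤ (1 + α + s) ^ 2 - 4 * α := by nlinarith [sq_nonneg (1 - α)]
  have hq2 : q ^ 2 = (1 + α + s) ^ 2 - 4 * α := Real.sq_sqrt h0
  have hge : |1 - α - s| ≤ q := Real.abs_le_sqrt (by nlinarith)
  have hr : 0 ≤ mpR α s := div_nonneg (by linarith [neg_abs_le (1 - α - s)]) (by linarith)
  refine ⟨hr, ?_⟩
  set r := mpR α s with hrdef
  have e : 2 * s * r = 1 - α - s + q := by rw [hrdef, mpR, ← hq]; field_simp
  have key : s * r ^ 2 + (α + s - 1) * r - 1 = 0 := by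
    have : 4 * s * (s * r ^ 2 + (α + s - 1) * r - 1) = 0 := by
      linear_combination (2 * s * r + (α + s - 1) + q) * e + hq2
    rcases mul_eq_zero.1 this with h | h
    · linarith
    · exact h
  have h1 : (0 : ℝ) < 1 + r := by linarith
  simp only [mpF]
  field_simp
  linear_combination (-1 : ℝ) * key

lemma mp_Ioo_pos (hα : 0 < α) {u v : ℝ} (hu : mpLo α ≤ u) (huv : u < v) (hv : v ≤ mpHi α) :
    0 < mp α (Ioo u v) := by
  rw [mp, Measure.add_apply]
  refine lt_of_lt_of_le ?_ (le_add_of_nonneg_left zero_le)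
  rw [withDensity_apply _ measurableSet_Ioo, Measure.restrict_restrict measurableSet_Ioo,
    inter_eq_left.2 (Ioo_subset_Icc_self.trans (Icc_subset_Icc hu hv)),
    setLIntegral_pos_iff (measurable_mpDens α).ennreal_ofReal]
  have : Function.support (fun x => ENNReal.ofReal (mpDens α x)) ∩ Ioo u v = Ioo u v := by
    refine inter_eq_right.2 fun x hx => ?_
    have hp : 0 < x := ((mpLo_nonneg α).trans hu).trans_lt hx.1
    have h : 0 < mpDens α x := div_pos (Real.sqrt_pos.2 (mul_pos (by linarith [hx.2])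
      (by linarith [hx.1]))) (by positivity)
    simp [Function.mem_support, h]
  rw [this, Real.volume_Ioo]
  simpa using huv

lemma mp_ae_mem (hα : 0 < α) : ∀ᵐ x ∂mp α, x ∈ Icc (edgeLo α) (mpHi α) := by
  rw [mp, ae_add_measure_iff]
  obtain ⟨-, h2, h3⟩ := edgeLo_facts hα
  refine ⟨?_, ?_⟩
  · by_cases h : α ≤ 1
    · refine Measure.ae_smul_measure (ae_dirac_iff measurableSet_Icc |>.2 ?_) _
      rw [edgeLo, if_pos h]
      exact ⟨le_rfl, sq_nonneg _⟩
    · simp [ENNReal.ofReal_of_nonpos (show 1 - α ≤ 0 by linarith [not_le.1 h])]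
  · exact (withDensity_absolutelyContinuous _ _).ae_le ((ae_restrict_mem measurableSet_Icc).mono
      fun x hx => ⟨h2.trans hx.1, hx.2⟩)

lemma mp_support (hα : 0 < α) :
    (mp α).support ⊆ Icc (edgeLo α) (mpHi α) ∧ edgeLo α ∈ (mp α).support ∧ mpHi α ∈ (mp α).support := by
  refine ⟨Measure.support_subset_of_isClosed isClosed_Icc (mp_ae_mem hα), ?_, ?_⟩
  · refine (Measure.mem_support_iff_forall _).2 fun U hU => ?_
    by_cases hlt : α < 1
    · rw [mp, Measure.add_apply]
      refine lt_of_lt_of_le ?_ (le_add_of_nonneg_right zero_le)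
      rw [edgeLo, if_pos hlt.le] at hU
      rw [Measure.smul_apply, Measure.dirac_apply_of_mem (mem_of_mem_nhds hU)]
      simpa using hlt
    · have he : edgeLo α = mpLo α := by
        rw [edgeLo]
        split_ifs with h
        · simp [mpLo, le_antisymm h (not_lt.1 hlt)]
        · rfl
      rw [he] at hU
      obtain ⟨ε, hε, hUε⟩ := Metric.mem_nhds_iff.1 hU
      refine (mp_Ioo_pos hα (u := mpLo α) (v := min (mpLo α + ε) (mpHi α)) le_rfl
        (lt_min (by linarith) (mpLo_lt_hi hα)) (min_le_right _ _)).trans_le (measure_mono fun x hx => hUε ?_)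
      rw [Metric.mem_ball, Real.dist_eq, abs_of_nonneg (by linarith [hx.1])]
      linarith [hx.1, hx.2.trans_le (min_le_left _ _)]
  · refine (Measure.mem_support_iff_forall _).2 fun U hU => ?_
    obtain ⟨ε, hε, hUε⟩ := Metric.mem_nhds_iff.1 hU
    have hd := mpLo_lt_hi hα
    refine (mp_Ioo_pos hα (u := max (mpLo α) (mpHi α - ε)) (v := mpHi α) (le_max_left _ _)
      (max_lt hd (by linarith)) le_rfl).trans_le (measure_mono fun x hx => hUε ?_)
    rw [Metric.mem_ball, Real.dist_eq, abs_of_nonpos (by linarith [hx.2])]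
    linarith [le_max_right (mpLo α) (mpHi α - ε), hx.1]

/-- The mean of the law. -/
lemma integral_mp_clip (hα : 0 < α) :
    ∫ x, min (max x 0) (mpHi α) ∂mp α = α := by
  obtain ⟨h1, h2⟩ := edges hα.le
  have hR : 0 < 2 * Real.sqrt α := by positivity
  rw [(integral_mp hα (φ := fun x => min (max x 0) (mpHi α)) (by fun_prop) (C := mpHi α)
    fun x _ => by
      have h : (0 : ℝ) ≤ mpHi α := sq_nonneg _
      rw [abs_of_nonneg (le_min (le_max_right x 0) h)]
      exact min_le_right _ _).2]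
  have h0 : (0 : ℝ) ≤ mpHi α := sq_nonneg _
  simp only [max_self, min_eq_left h0, mul_zero, zero_add]
  have hae : ∀ x ∈ Icc (mpLo α) (mpHi α), x ≠ 0 → mpDens α x * min (max x 0) (mpHi α) =
      Real.sqrt ((2 * Real.sqrt α) ^ 2 - (x - (1 + α)) ^ 2) / (2 * π) := fun x hx hx0 => by
    rw [max_eq_left ((mpLo_nonneg α).trans hx.1), min_eq_left hx.2, mpDens_eq hα.le, semiDiv,
      sub_add_cancel]
    field_simp
  rw [setIntegral_congr_ae measurableSet_Icc
      (g := fun x => Real.sqrt ((2 * Real.sqrt α) ^ 2 - (x - (1 + α)) ^ 2) / (2 * π))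
      ((Measure.ae_ne volume 0).mono fun x hx0 hx => hae x hx hx0),
    integral_Icc_eq_integral_Ioc, ← intervalIntegral.integral_of_le (mpLo_lt_hi hα).le, h1, h2,
    intervalIntegral.integral_div]
  set R := 2 * Real.sqrt α with hRd
  have e := intervalIntegral.integral_comp_mul_add
    (fun x => Real.sqrt (R ^ 2 - (x - (1 + α)) ^ 2)) hR.ne' (1 + α) (a := -1) (b := 1)
  have e1 : (fun u : ℝ => Real.sqrt (R ^ 2 - (R * u + (1 + α) - (1 + α)) ^ 2)) =
      fun u => R * Real.sqrt (1 - u ^ 2) := funext fun u => by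
    rw [add_sub_cancel_right, show R ^ 2 - (R * u) ^ 2 = R ^ 2 * (1 - u ^ 2) by ring,
      Real.sqrt_mul (sq_nonneg R), Real.sqrt_sq hR.le]
  rw [e1, intervalIntegral.integral_const_mul, integral_sqrt_one_sub_sq, smul_eq_mul, mul_neg, mul_one,
    neg_add_eq_sub, add_comm R] at e
  have hp := Real.pi_pos.ne'
  have hsq : R ^ 2 = 4 * α := by rw [hRd, mul_pow, Real.sq_sqrt hα.le]; norm_num
  have e3 : ∫ x in (1 + α - R)..(1 + α + R), Real.sqrt (R ^ 2 - (x - (1 + α)) ^ 2) = 2 * α * π := by
    have e4 := congrArg (fun y => R * y) e.symm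
    simp only [mul_inv_cancel_left₀ hR.ne'] at e4
    rw [e4]
    linear_combination (π / 2) * hsq
  rw [e3]
  field_simp

end Vale.Agent.P166N.Spectrum
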