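import Vale.Agent.P166W.Rotate

/-!
The resolvent of a Gaussian sample covariance matrix at a negative argument.
-/

namespace Vale.Agent.P166N.Spectrum

open MeasureTheory ProbabilityTheory Matrix
open Vale.Agent.P166W (gauss map_gauss_mulVec)

variable {N M : ℕ}

/-- The sample covariance matrix `G ᵀ G / N`. -/
noncomputable def covW (G : Fin M → Fin N → ℝ) : Matrix (Fin N) (Fin N) ℝ :=
  (N : ℝ)⁻¹ • ((of G)ᵀ * of G)

/-- The resolvent at `-s`. -/
noncomputable def res (s : ℝ) (G : Fin M → Fin N → ℝ) : Matrix (Fin N) (Fin N) ℝ :=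
  (covW G + s • 1)⁻¹

/-- The normalised trace. -/
noncomputable def trN (A : Matrix (Fin N) (Fin N) ℝ) : ℝ := A.trace / N

lemma covW_apply (G : Fin M → Fin N → ℝ) (i j : Fin N) :
    covW G i j = (∑ k, G k i * G k j) / N := by
  simp [covW, Matrix.mul_apply, div_eq_inv_mul]

lemma dot_covW (G : Fin M → Fin N → ℝ) (v : Fin N → ℝ) :
    v ⬝ᵥ (covW G *ᵥ v) = (∑ k, (G k ⬝ᵥ v) ^ 2) / N := by
  rw [covW, smul_mulVec, dotProduct_smul, ← mulVec_mulVec, dotProduct_mulVec, vecMul_transpose,
    smul_eq_mul, div_eq_inv_mul]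
  congr 1
  simp only [dotProduct, mulVec, Matrix.of_apply, pow_two]

lemma transpose_covW (G : Fin M → Fin N → ℝ) : (covW G)ᵀ = covW G := by
  ext i j
  simp [covW_apply, mul_comm]

variable {s : ℝ}

lemma dot_shift_ge (G : Fin M → Fin N → ℝ) (s : ℝ) (v : Fin N → ℝ) :
    s * (v ⬝ᵥ v) ≤ v ⬝ᵥ ((covW G + s • 1) *ᵥ v) := by
  rw [add_mulVec, smul_mulVec, one_mulVec, dotProduct_add, dotProduct_smul, dot_covW, smul_eq_mul]
  exact le_add_of_nonneg_left (by positivity)

lemma posDef_shift (hs : 0 < s) (G : Fin M → Fin N → ℝ) : (covW G + s • 1).PosDef := by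
  refine Matrix.PosDef.of_dotProduct_mulVec_pos ?_ fun v hv => ?_
  · rw [IsHermitian, conjTranspose_eq_transpose_of_trivial, transpose_add, transpose_covW,
      transpose_smul, transpose_one]
  · rw [star_trivial]
    exact lt_of_lt_of_le (mul_pos hs ((Matrix.dotProduct_star_self_pos_iff).2 hv |>.trans_eq
      (by rw [star_trivial]))) (dot_shift_ge G s v)

lemma shift_mul_res (hs : 0 < s) (G : Fin M → Fin N → ℝ) : (covW G + s • 1) * res s G = 1 :=
  Matrix.mul_nonsing_inv _ (isUnit_iff_ne_zero.2 (posDef_shift hs G).det_pos.ne')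

lemma transpose_res (s : ℝ) (G : Fin M → Fin N → ℝ) : (res s G)ᵀ = res s G := by
  rw [res, transpose_nonsing_inv, transpose_add, transpose_covW, transpose_smul, transpose_one]

lemma shift_mulVec_res (hs : 0 < s) (G : Fin M → Fin N → ℝ) (g : Fin N → ℝ) :
    (covW G + s • 1) *ᵥ (res s G *ᵥ g) = g := by
  rw [mulVec_mulVec, shift_mul_res hs, one_mulVec]

lemma sq_res_le (hs : 0 < s) (G : Fin M → Fin N → ℝ) (g : Fin N → ℝ) :
    s * ((res s G *ᵥ g) ⬝ᵥ (res s G *ᵥ g)) ≤ g ⬝ᵥ (res s G *ᵥ g) := by
  have h := dot_shift_ge G s (res s G *ᵥ g)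
  rwa [shift_mulVec_res hs, dotProduct_comm _ g] at h

lemma dot_res_nonneg (hs : 0 < s) (G : Fin M → Fin N → ℝ) (g : Fin N → ℝ) :
    0 ≤ g ⬝ᵥ (res s G *ᵥ g) :=
  le_trans (mul_nonneg hs.le (Finset.sum_nonneg fun _ _ => mul_self_nonneg _)) (sq_res_le hs G g)

lemma dot_res_le (hs : 0 < s) (G : Fin M → Fin N → ℝ) (g : Fin N → ℝ) :
    g ⬝ᵥ (res s G *ᵥ g) ≤ (g ⬝ᵥ g) / s := by
  set u := res s G *ᵥ g
  have h1 := sq_res_le hs G g
  have h2 : 0 ≤ (g - s • u) ⬝ᵥ (g - s • u) := Finset.sum_nonneg fun _ _ => mul_self_nonneg _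
  simp only [sub_dotProduct, dotProduct_sub, smul_dotProduct, dotProduct_smul, smul_eq_mul,
    dotProduct_comm u g] at h2
  have h3 := mul_le_mul_of_nonneg_left h1 hs.le
  rw [le_div_iff₀ hs]
  linarith

lemma res_diag_mem (hs : 0 < s) (G : Fin M → Fin N → ℝ) (i : Fin N) :
    res s G i i ∈ Set.Icc 0 (1 / s) := by
  have e : (Pi.single i 1 : Fin N → ℝ) ⬝ᵥ (res s G *ᵥ Pi.single i 1) = res s G i i := by simp
  have h1 := dot_res_nonneg hs G (Pi.single i 1)
  have h2 := dot_res_le hs G (Pi.single i 1)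
  rw [e] at h1 h2
  exact ⟨h1, h2.trans_eq (by simp)⟩

lemma trN_res_mem (hs : 0 < s) (G : Fin M → Fin N → ℝ) : trN (res s G) ∈ Set.Icc 0 (1 / s) := by
  refine ⟨div_nonneg (Finset.sum_nonneg fun i _ => (res_diag_mem hs G i).1) (Nat.cast_nonneg N), ?_⟩
  rcases Nat.eq_zero_or_pos N with rfl | hN
  · simp [trN, hs.le]
  · rw [trN, div_le_iff₀ (by exact_mod_cast hN)]
    refine (Finset.sum_le_sum fun i _ => (res_diag_mem hs G i).2).trans_eq ?_
    simp; ring

/-- One pattern less. -/
def drop (G : Fin M → Fin N → ℝ) (k : Fin M) : Fin M → Fin N → ℝ := Function.update G k 0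

lemma covW_drop (G : Fin M → Fin N → ℝ) (k : Fin M) :
    covW G = covW (drop G k) + (N : ℝ)⁻¹ • vecMulVec (G k) (G k) := by
  ext i j
  simp only [Matrix.add_apply, Matrix.smul_apply, covW_apply, vecMulVec_apply, smul_eq_mul,
    ← div_eq_inv_mul, ← add_div]
  congr 1
  rw [← Finset.sum_erase_add _ _ (Finset.mem_univ k),
    ← Finset.sum_erase_add (Finset.univ : Finset (Fin M)) (fun l => drop G k l i * drop G k l j)
      (Finset.mem_univ k)]
  simp only [drop, Function.update_self, Pi.zero_apply, mul_zero, add_zero]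
  congr 1
  refine Finset.sum_congr rfl fun l hl => ?_
  rw [Function.update_of_ne (Finset.ne_of_mem_erase hl)]

/-- The quadratic form of a pattern in the resolvent without it, normalised. -/
noncomputable def qk (s : ℝ) (G : Fin M → Fin N → ℝ) (k : Fin M) : ℝ :=
  (G k ⬝ᵥ (res s (drop G k) *ᵥ G k)) / N

lemma qk_nonneg (hs : 0 < s) (G : Fin M → Fin N → ℝ) (k : Fin M) : 0 ≤ qk s G k :=
  div_nonneg (dot_res_nonneg hs _ _) (Nat.cast_nonneg N)

lemma res_drop (hs : 0 < s) (G : Fin M → Fin N → ℝ) (k : Fin M) :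
    res s G = res s (drop G k) - ((N : ℝ)⁻¹ / (1 + qk s G k)) •
      vecMulVec (res s (drop G k) *ᵥ G k) (res s (drop G k) *ᵥ G k) := by
  set g := G k
  set Rk := res s (drop G k)
  set u := Rk *ᵥ g
  set c := (N : ℝ)⁻¹
  have hq := qk_nonneg hs G k
  have hA := shift_mul_res hs (drop G k)
  have hAu : (covW (drop G k) + s • 1) *ᵥ u = g := shift_mulVec_res hs _ g
  have hgR : g ᵥ* Rk = u := by rw [← mulVec_transpose, transpose_res]
  have hgu : c * (g ⬝ᵥ u) = qk s G k := by simp only [qk, c, g, u, Rk]; ring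
  refine Matrix.inv_eq_right_inv ?_
  rw [covW_drop G k, add_right_comm, add_mul, mul_sub, hA, Matrix.mul_smul, mul_vecMulVec, hAu,
    smul_mul, mul_sub, vecMulVec_mul, hgR, Matrix.mul_smul, vecMulVec_mul_vecMulVec, vecMulVec_smul]
  have : c - c * (c / (1 + qk s G k)) * (g ⬝ᵥ u) = c / (1 + qk s G k) := by
    rw [show c * (c / (1 + qk s G k)) * (g ⬝ᵥ u) = c / (1 + qk s G k) * (c * (g ⬝ᵥ u)) by ring, hgu]
    field_simp
    ring
  ext i j
  simp only [Matrix.add_apply, Matrix.sub_apply, Matrix.smul_apply, vecMulVec_apply, smul_eq_mul]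
  linear_combination (g i * u j) * this

lemma quad_res (hs : 0 < s) (G : Fin M → Fin N → ℝ) (k : Fin M) :
    (G k ⬝ᵥ (res s G *ᵥ G k)) / N = qk s G k / (1 + qk s G k) := by
  have hq := qk_nonneg hs G k
  conv_lhs => rw [res_drop hs G k]
  rw [sub_mulVec, smul_mulVec, vecMulVec_mulVec, dotProduct_sub, dotProduct_smul]
  simp only [op_smul_eq_smul, dotProduct_smul, smul_eq_mul]
  rw [dotProduct_comm (res s (drop G k) *ᵥ G k) (G k)]
  simp only [qk] at *
  field_simp
  ring

lemma abs_trN_drop (hs : 0 < s) (G : Fin M → Fin N → ℝ) (k : Fin M) :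
    |trN (res s (drop G k)) - trN (res s G)| ≤ 1 / (s * N) := by
  have hq := qk_nonneg hs G k
  set u := res s (drop G k) *ᵥ G k
  have h1 := sq_res_le hs (drop G k) (G k)
  have hu : 0 ≤ u ⬝ᵥ u := Finset.sum_nonneg fun _ _ => mul_self_nonneg _
  rcases Nat.eq_zero_or_pos N with rfl | hN
  · simp [trN]
  have hN' : (0 : ℝ) < N := by exact_mod_cast hN
  rw [res_drop hs G k, trN, trN, trace_sub, trace_smul, trace_vecMulVec, smul_eq_mul, ← sub_div,
    sub_sub_cancel, abs_of_nonneg (by positivity)]
  simp only [qk]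
  rw [div_le_div_iff₀ hN' (by positivity)]
  have h3 : (u ⬝ᵥ u) * s ≤ N + G k ⬝ᵥ (res s (drop G k) *ᵥ G k) := by linarith [h1]
  have h4 : 0 < (N : ℝ) + G k ⬝ᵥ (res s (drop G k) *ᵥ G k) := by
    linarith [dot_res_nonneg hs (drop G k) (G k)]
  field_simp
  nlinarith

/-- The trace identity. -/
lemma trace_identity (hs : 0 < s) (hN : 0 < N) (G : Fin M → Fin N → ℝ) :
    1 - s * trN (res s G) = (∑ k, qk s G k / (1 + qk s G k)) / N := by
  have h := congrArg Matrix.trace (shift_mul_res hs G)
  rw [add_mul, smul_mul, one_mul, trace_add, trace_smul, smul_eq_mul, trace_one, Fintype.card_fin] at h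
  have e : (covW G * res s G).trace = ∑ k, (G k ⬝ᵥ (res s G *ᵥ G k)) / N := by
    rw [covW, smul_mul, trace_smul, Matrix.mul_assoc, trace_mul_comm, smul_eq_mul, ← Finset.sum_div,
      div_eq_inv_mul]
    congr 1
    refine Finset.sum_congr rfl fun k _ => ?_
    simp only [diag_apply, mul_apply, transpose_apply, Matrix.of_apply, dotProduct, mulVec,
      Finset.mul_sum, Finset.sum_mul]
    rw [Finset.sum_comm]
    exact Finset.sum_congr rfl fun i _ => Finset.sum_congr rfl fun j _ => by ring
  simp only [quad_res hs] at e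
  rw [e] at h
  have hN' : (N : ℝ) ≠ 0 := by exact_mod_cast hN.ne'
  rw [trN]
  field_simp
  linarith

lemma measurable_res (s : ℝ) (i j : Fin N) :
    Measurable fun G : Fin M → Fin N → ℝ => res s G i j := by
  have h1 : Continuous fun G : Fin M → Fin N → ℝ => covW G + s • (1 : Matrix (Fin N) (Fin N) ℝ) := by
    unfold covW
    fun_prop
  have e : (fun G : Fin M → Fin N → ℝ => res s G i j) = fun G =>
      ((covW G + s • (1 : Matrix (Fin N) (Fin N) ℝ)).det)⁻¹ * (covW G + s • 1).adjugate i j := by
    funext G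
    simp [res, Matrix.inv_def, Ring.inverse_eq_inv']
  rw [e]
  exact (h1.matrix_det.measurable.inv).mul (h1.matrix_adjugate.matrix_elem i j).measurable

lemma measurable_trN_res (s : ℝ) : Measurable fun G : Fin M → Fin N → ℝ => trN (res s G) :=
  (Finset.measurable_fun_sum _ fun i _ => measurable_res s i i).div_const _

/-- Variance of a squared standard Gaussian variable, up to a constant. -/
noncomputable def qv : ℝ := ∫ z, (z ^ 2 - 1) ^ 2 ∂gaussianReal 0 1

lemma memLp_sq_sub : MemLp (fun z : ℝ => z ^ 2 - 1) 2 (gaussianReal 0 1) := by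
  have h4 : MemLp (fun z : ℝ => z) 4 (gaussianReal 0 1) := memLp_id_gaussianReal' 4 (by simp)
  have h : MemLp (fun z : ℝ => z * z) 2 (gaussianReal 0 1) :=
    h4.mul' h4 (hpqr := ⟨by
      rw [← ENNReal.toReal_eq_toReal_iff' (by simp) (by simp), ENNReal.toReal_add (by simp) (by simp)]
      simp; norm_num⟩)
  simpa [pow_two, Pi.sub_def] using h.sub (memLp_const (1 : ℝ))

lemma integral_sq_one : ∫ z : ℝ, (z ^ 2 - 1) ∂gaussianReal 0 1 = 0 := by
  have h := (memLp_id_gaussianReal' (μ := 0) (v := 1) 2 (by simp))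
  have h2 : ∫ z : ℝ, z ^ 2 ∂gaussianReal 0 1 = 1 := by
    have := variance_fun_id_gaussianReal (μ := 0) (v := 1)
    rw [variance_of_integral_eq_zero (by fun_prop) (by simp)] at this
    simpa using this
  rw [integral_sub (by simpa using h.integrable_sq) (integrable_const 1), h2]
  simp

/-- Concentration of a quadratic form. -/
lemma quad_concentration (A : Matrix (Fin N) (Fin N) ℝ) (hA : Aᵀ = A) {C : ℝ}
    (hC : ∀ v : Fin N → ℝ, |v ⬝ᵥ (A *ᵥ v)| ≤ C * (v ⬝ᵥ v)) :
    Integrable (fun g => (g ⬝ᵥ (A *ᵥ g) - A.trace) ^ 2) (gauss (Fin N)) ∧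
      ∫ g, (g ⬝ᵥ (A *ᵥ g) - A.trace) ^ 2 ∂gauss (Fin N) ≤ qv * C ^ 2 * N := by
  have hH : A.IsHermitian := by rwa [IsHermitian, conjTranspose_eq_transpose_of_trivial]
  set l := hH.eigenvalues
  set O : Matrix (Fin N) (Fin N) ℝ := (hH.eigenvectorUnitary : Matrix (Fin N) (Fin N) ℝ)
  have hO : Oᵀ * O = 1 := by
    have := (Unitary.mem_iff.1 hH.eigenvectorUnitary.2).1
    rwa [star_eq_conjTranspose, conjTranspose_eq_transpose_of_trivial] at this
  have hAO : A = O * diagonal l * Oᵀ := by
    have h := hH.spectral_theorem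
    rw [Unitary.conjStarAlgAut_apply, star_eq_conjTranspose, conjTranspose_eq_transpose_of_trivial] at h
    simpa [Function.comp_def] using h
  have htr : A.trace = ∑ i, l i := by simpa using hH.trace_eq_sum_eigenvalues
  have hl : ∀ i, |l i| ≤ C := fun i => by
    have h := hC (O *ᵥ Pi.single i 1)
    rw [hAO] at h
    rw [← mulVec_mulVec, mulVec_mulVec _ Oᵀ, hO, one_mulVec, ← mulVec_mulVec,
      dotProduct_mulVec, ← mulVec_transpose, mulVec_mulVec _ Oᵀ, hO, one_mulVec,
      dotProduct_mulVec (O *ᵥ _) O, ← mulVec_transpose, mulVec_mulVec _ Oᵀ, hO, one_mulVec] at h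
    simpa using h
  set X : Fin N → ℝ → ℝ := fun i z => l i * (z ^ 2 - 1)
  have hX : ∀ i, MemLp (X i) 2 (gaussianReal 0 1) := fun i => memLp_sq_sub.const_mul (l i)
  have hsum : MemLp (∑ i, fun z : Fin N → ℝ => X i (z i)) 2 (gauss (Fin N)) :=
    memLp_finsetSum' _ fun i _ =>
      (hX i).comp_measurePreserving (measurePreserving_eval (fun _ : Fin N => gaussianReal 0 1) i)
  set F : (Fin N → ℝ) → ℝ := fun g => (g ⬝ᵥ (A *ᵥ g) - A.trace) ^ 2
  have hrot : ∀ g, F (O *ᵥ g) = (∑ i, fun z : Fin N → ℝ => X i (z i)) g ^ 2 := fun g => by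
    simp only [F, Finset.sum_apply, X]
    congr 1
    rw [htr, hAO, ← mulVec_mulVec, mulVec_mulVec _ Oᵀ, hO, one_mulVec, ← mulVec_mulVec,
      dotProduct_mulVec (O *ᵥ g) O, ← mulVec_transpose, mulVec_mulVec _ Oᵀ, hO, one_mulVec]
    simp only [dotProduct, mulVec_diagonal, mul_sub, Finset.sum_sub_distrib, mul_one]
    congr 1
    exact Finset.sum_congr rfl fun i _ => by ring
  have hmp : MeasurePreserving (fun g : Fin N → ℝ => O *ᵥ g) (gauss (Fin N)) (gauss (Fin N)) :=
    ⟨Continuous.measurable (by fun_prop), map_gauss_mulVec O hO⟩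
  have hFm : AEStronglyMeasurable F (gauss (Fin N)) :=
    (Continuous.measurable (by fun_prop)).aestronglyMeasurable
  have hi : Integrable F (gauss (Fin N)) :=
    (hmp.integrable_comp hFm).1 (hsum.integrable_sq.congr
      (Filter.Eventually.of_forall fun g => (hrot g).symm))
  refine ⟨hi, ?_⟩
  have e : ∫ g, F g ∂gauss (Fin N) = ∫ g, (∑ i, fun z : Fin N → ℝ => X i (z i)) g ^ 2 ∂gauss (Fin N) := by
    simp only [← hrot]
    conv_lhs => rw [← hmp.map_eq]
    rw [integral_map hmp.measurable.aemeasurable (by rwa [hmp.map_eq])]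
  have h0 : ∫ g, (∑ i, fun z : Fin N → ℝ => X i (z i)) g ∂gauss (Fin N) = 0 := by
    simp only [Finset.sum_apply]
    have hXi : ∀ i, Integrable (fun g : Fin N → ℝ => X i (g i)) (gauss (Fin N)) := fun i =>
      ((hX i).comp_measurePreserving
        (measurePreserving_eval (fun _ : Fin N => gaussianReal 0 1) i)).integrable one_le_two
    rw [integral_finsetSum _ fun i _ => hXi i]
    refine Finset.sum_eq_zero fun i _ => ?_
    rw [gauss, integral_comp_eval (μ := fun _ : Fin N => gaussianReal 0 1) (f := X i)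
      (hX i).aestronglyMeasurable, integral_const_mul, integral_sq_one, mul_zero]
  show ∫ g, F g ∂gauss (Fin N) ≤ _
  rw [e, ← variance_of_integral_eq_zero hsum.aestronglyMeasurable.aemeasurable h0, gauss,
    variance_sum_pi hX]
  refine (Finset.sum_le_sum fun i _ => ?_).trans_eq (by simp; ring : ∑ _i : Fin N, qv * C ^ 2 = _)
  rw [variance_const_mul, variance_of_integral_eq_zero (by fun_prop) integral_sq_one, mul_comm qv]
  refine mul_le_mul_of_nonneg_right ?_ (integral_nonneg fun z => sq_nonneg _)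
  rw [← sq_abs]
  exact pow_le_pow_left₀ (abs_nonneg _) (hl i) 2

/-- The law of the patterns. -/
noncomputable def patLaw (N M : ℕ) : Measure (Fin M → Fin N → ℝ) :=
  Measure.pi fun _ => gauss (Fin N)

instance : IsProbabilityMeasure (gauss (Fin N)) := by unfold gauss; infer_instance

instance : IsProbabilityMeasure (patLaw N M) := by unfold patLaw; infer_instance

/-- Redrawing one pattern. -/
lemma measurePreserving_redraw (k : Fin M) :
    MeasurePreserving (fun p : (Fin M → Fin N → ℝ) × (Fin N → ℝ) => Function.update p.1 k p.2)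
      ((patLaw N M).prod (gauss (Fin N))) (patLaw N M) := by
  have hm : Measurable fun p : (Fin M → Fin N → ℝ) × (Fin N → ℝ) => Function.update p.1 k p.2 :=
    measurable_pi_iff.2 fun l => by
      by_cases h : l = k
      · subst h; simpa using measurable_snd
      · simp only [Function.update_of_ne h]; fun_prop
  refine ⟨hm, (Measure.pi_eq fun t ht => ?_).symm⟩
  rw [Measure.map_apply hm (MeasurableSet.univ_pi ht),
    show (fun p : (Fin M → Fin N → ℝ) × (Fin N → ℝ) => Function.update p.1 k p.2) ⁻¹' Set.univ.pi t =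
      Set.univ.pi (Function.update t k Set.univ) ×ˢ t k by
      ext p
      simp only [Set.mem_preimage, Set.mem_pi, Set.mem_univ, true_implies, Set.mem_prod]
      constructor
      · intro h
        refine ⟨fun l => ?_, by simpa using h k⟩
        by_cases hl : l = k
        · subst hl; simp
        · simpa [hl] using h l
      · rintro ⟨h, h'⟩ l
        by_cases hl : l = k
        · subst hl; simpa using h'
        · simpa [hl] using h l,
    Measure.prod_prod, patLaw, Measure.pi_pi,
    ← Finset.prod_erase_mul _ _ (Finset.mem_univ k),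
    ← Finset.prod_erase_mul Finset.univ (fun l => gauss (Fin N) (t l)) (Finset.mem_univ k)]
  simp only [Function.update_self, measure_univ, mul_one]
  congr 1
  refine Finset.prod_congr rfl fun l hl => ?_
  rw [Function.update_of_ne (Finset.ne_of_mem_erase hl)]

lemma measurable_qk (s : ℝ) (k : Fin M) : Measurable fun G : Fin M → Fin N → ℝ => qk s G k := by
  have hd : ∀ i j, Measurable fun G : Fin M → Fin N → ℝ => res s (drop G k) i j := fun i j =>
    (measurable_res s i j).comp (measurable_pi_iff.2 fun l => by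
      by_cases h : l = k
      · subst h; simp [drop]
      · simp only [drop, Function.update_of_ne h]; fun_prop)
  have hg : ∀ i : Fin N, Measurable fun G : Fin M → Fin N → ℝ => G k i := fun i => by fun_prop
  show Measurable fun G : Fin M → Fin N → ℝ =>
    (∑ i, G k i * ∑ j, res s (drop G k) i j * G k j) / (N : ℝ)
  exact (Finset.measurable_fun_sum _ fun i _ =>
    (hg i).fun_mul (Finset.measurable_fun_sum _ fun j _ => (hd i j).fun_mul (hg j))).div_const _

/-- The quadratic form of a pattern is close to the normalised trace. -/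
lemma integral_abs_qk_sub_le (hs : 0 < s) (hN : 0 < N) (k : Fin M) :
    Integrable (fun G => |qk s G k - trN (res s G)|) (patLaw N M) ∧
      ∫ G, |qk s G k - trN (res s G)| ∂patLaw N M ≤ (qv / s ^ 2 + 1 / s + 1) / Real.sqrt N := by
  have hN' : (0 : ℝ) < N := by exact_mod_cast hN
  set r := Real.sqrt (N : ℝ)
  have hr : 0 < r := Real.sqrt_pos.2 hN'
  have hr2 : r * r = N := Real.mul_self_sqrt hN'.le
  set D : (Fin M → Fin N → ℝ) → ℝ := fun G => qk s G k - trN (res s (drop G k))
  have hdm : Measurable D := (measurable_qk s k).sub ((measurable_trN_res s).comp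
    (measurable_pi_iff.2 fun l => by
      by_cases h : l = k
      · subst h; simp [drop]
      · simp only [drop, Function.update_of_ne h]; fun_prop))
  have hmp := measurePreserving_redraw (N := N) k
  have hsec : ∀ G : Fin M → Fin N → ℝ,
      Integrable (fun g => D (Function.update G k g) ^ 2) (gauss (Fin N)) ∧
      ∫ g, D (Function.update G k g) ^ 2 ∂gauss (Fin N) ≤ qv / (s ^ 2 * N) := fun G => by
    have e : ∀ g, D (Function.update G k g) ^ 2 = (g ⬝ᵥ (res s (drop G k) *ᵥ g) -
        (res s (drop G k)).trace) ^ 2 / (N : ℝ) ^ 2 := fun g => by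
      simp only [D, qk, trN, drop, Function.update_idem, Function.update_self, ← sub_div, div_pow]
    obtain ⟨hi, hb⟩ := quad_concentration (res s (drop G k)) (transpose_res s _) (C := 1 / s) fun v => by
      rw [abs_of_nonneg (dot_res_nonneg hs _ v), one_div_mul_eq_div]
      exact dot_res_le hs _ v
    simp only [e]
    refine ⟨hi.div_const _, ?_⟩
    rw [integral_div, div_le_iff₀ (by positivity)]
    refine hb.trans_eq ?_
    field_simp
  have hsq : Integrable (fun G => D G ^ 2) (patLaw N M) := by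
    refine (hmp.integrable_comp (hdm.pow_const 2).aestronglyMeasurable).1
      ((integrable_prod_iff ((hdm.pow_const 2).comp hmp.measurable).aestronglyMeasurable).2
        ⟨Filter.Eventually.of_forall fun G => (hsec G).1, (integrable_const (qv / (s ^ 2 * N))).mono'
          ((hdm.pow_const 2).comp hmp.measurable).norm.stronglyMeasurable.integral_prod_right'.aestronglyMeasurable
          (Filter.Eventually.of_forall fun G => ?_)⟩)
    rw [Real.norm_eq_abs, abs_of_nonneg (integral_nonneg fun g => norm_nonneg _)]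
    simpa using (hsec G).2
  have hint2 : ∫ G, D G ^ 2 ∂patLaw N M ≤ qv / (s ^ 2 * N) := by
    conv_lhs => rw [← hmp.map_eq]
    rw [integral_map hmp.measurable.aemeasurable (by rw [hmp.map_eq]; exact hsq.aestronglyMeasurable),
      integral_prod (f := fun x => D (Function.update x.1 k x.2) ^ 2)
        ((hmp.integrable_comp hsq.aestronglyMeasurable).2 hsq)]
    exact (integral_mono ((hmp.integrable_comp hsq.aestronglyMeasurable).2 hsq).integral_prod_left
      (integrable_const _) fun G => (hsec G).2).trans_eq (by simp)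
  have hpt : ∀ G, |qk s G k - trN (res s G)| ≤ (D G ^ 2 * r + 1 / r) + 1 / (s * N) := fun G => by
    have h1 := abs_sub_le (qk s G k) (trN (res s (drop G k))) (trN (res s G))
    have h2 := abs_trN_drop hs G k
    have h3 : |D G| ≤ D G ^ 2 * r + 1 / r := by
      rw [← sq_abs, ← sub_nonneg, show |D G| ^ 2 * r + 1 / r - |D G| =
        ((|D G| * r - 1) ^ 2 + |D G| * r) / r by field_simp; ring]
      positivity
    linarith [h3]
  have hint : Integrable (fun G => (D G ^ 2 * r + 1 / r) + 1 / (s * N)) (patLaw N M) :=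
    ((hsq.mul_const r).add (integrable_const _)).add (integrable_const _)
  have hi : Integrable (fun G => |qk s G k - trN (res s G)|) (patLaw N M) :=
    hint.mono' ((measurable_qk s k).sub (measurable_trN_res s)).norm.aestronglyMeasurable
      (Filter.Eventually.of_forall fun G => by
        rw [Real.norm_eq_abs, abs_abs]; exact hpt G)
  refine ⟨hi, (integral_mono hi hint hpt).trans ?_⟩
  have hh : Integrable (fun G => D G ^ 2 * r + 1 / r) (patLaw N M) :=
    (hsq.mul_const r).add (integrable_const _)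
  rw [integral_add hh (integrable_const _),
    integral_add (hsq.mul_const r) (integrable_const _), integral_mul_const]
  simp only [integral_const, probReal_univ, one_smul]
  have h4 := mul_le_mul_of_nonneg_right hint2 hr.le
  have h5 : qv / (s ^ 2 * N) * r = qv / s ^ 2 / r := by
    rw [← hr2]; field_simp
  have h6 : 1 / (s * N) ≤ 1 / s / r := by
    rw [div_div]
    refine div_le_div_of_nonneg_left zero_le_one (by positivity) (mul_le_mul_of_nonneg_left ?_ hs.le)
    rw [← hr2]
    exact le_mul_of_one_le_left hr.le (Real.one_le_sqrt.2 (by exact_mod_cast hN))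
  rw [add_div, add_div]
  linarith

/-- The self-consistency defect. -/
noncomputable def mpF (α s r : ℝ) : ℝ := 1 - s * r - α * (r / (1 + r))

lemma abs_sub_le_mpF {α : ℝ} (hα : 0 ≤ α) (hs : 0 < s) {r t : ℝ} (hr : 0 ≤ r) (ht : 0 ≤ t) :
    s * |r - t| ≤ |mpF α s r - mpF α s t| := by
  have e : mpF α s r - mpF α s t = -((r - t) * (s + α / ((1 + r) * (1 + t)))) := by
    simp only [mpF]; field_simp; ring
  rw [e, abs_neg, abs_mul, mul_comm s]
  refine mul_le_mul_of_nonneg_left ((le_add_of_nonneg_right (by positivity)).trans (le_abs_self _))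
    (abs_nonneg _)

lemma integral_abs_mpF_le {α : ℝ} (hα : 0 ≤ α) (hs : 0 < s) (hN : 0 < N) :
    ∫ G, |mpF α s (trN (res s G))| ∂patLaw N M ≤
      |(M : ℝ) / N - α| + M / N * ((qv / s ^ 2 + 1 / s + 1) / Real.sqrt N) := by
  have hN' : (0 : ℝ) < N := by exact_mod_cast hN
  have hi := fun k : Fin M => integral_abs_qk_sub_le (N := N) hs hN k
  have hpt : ∀ G : Fin M → Fin N → ℝ, |mpF α s (trN (res s G))| ≤
      |(M : ℝ) / N - α| + (∑ k, |qk s G k - trN (res s G)|) / N := fun G => by
    set t := trN (res s G)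
    have ht : 0 ≤ t := (trN_res_mem hs G).1
    have hb : |t / (1 + t)| ≤ 1 := by
      rw [abs_of_nonneg (by positivity), div_le_one (by positivity)]; linarith
    have e : mpF α s t = (∑ k, (qk s G k / (1 + qk s G k) - t / (1 + t))) / N +
        ((M : ℝ) / N - α) * (t / (1 + t)) := by
      rw [mpF, trace_identity hs hN G, Finset.sum_sub_distrib, Finset.sum_const, Finset.card_univ,
        Fintype.card_fin, nsmul_eq_mul]
      ring
    have hk : ∀ k, |qk s G k / (1 + qk s G k) - t / (1 + t)| ≤ |qk s G k - t| := fun k => by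
      have hq := qk_nonneg hs G k
      rw [show qk s G k / (1 + qk s G k) - t / (1 + t) =
        (qk s G k - t) / ((1 + qk s G k) * (1 + t)) by field_simp; ring, abs_div,
        abs_of_nonneg (by positivity : (0 : ℝ) ≤ (1 + qk s G k) * (1 + t))]
      exact div_le_self (abs_nonneg _) (one_le_mul_of_one_le_of_one_le (by linarith) (by linarith))
    rw [e]
    refine (abs_add_le _ _).trans ((add_comm _ _).trans_le (add_le_add ?_ ?_))
    · rw [abs_mul]; exact mul_le_of_le_one_right (abs_nonneg _) hb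
    · rw [abs_div, abs_of_pos hN']
      exact div_le_div_of_nonneg_right ((Finset.abs_sum_le_sum_abs _ _).trans
        (Finset.sum_le_sum fun k _ => hk k)) hN'.le
  have hs' : Integrable (fun G => (∑ k, |qk s G k - trN (res s G)|) / N) (patLaw N M) :=
    (integrable_finsetSum _ fun k _ => (hi k).1).div_const _
  refine (integral_mono_of_nonneg (Filter.Eventually.of_forall fun G => abs_nonneg _)
    ((integrable_const _).add hs') (Filter.Eventually.of_forall hpt)).trans ?_
  simp only [Pi.add_apply]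
  rw [integral_add (integrable_const _) hs', integral_div, integral_finsetSum _ fun k _ => (hi k).1]
  simp only [integral_const, probReal_univ, one_smul]
  rw [div_mul_eq_mul_div]
  refine add_le_add le_rfl (div_le_div_of_nonneg_right ((Finset.sum_le_sum fun k _ => (hi k).2).trans_eq
    (by simp)) hN'.le)

end Vale.Agent.P166N.Spectrum
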