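import Vale.Agent.P166N.Spectrum.Gordon
import Vale.Agent.P166N.Spectrum.Resolvent
import Vale.Agent.P166N.Spectrum.MP

/-!
The smallest eigenvalue of a Gaussian sample covariance matrix, by Gordon's comparison.
-/

namespace Vale.Agent.P166N.Spectrum

open MeasureTheory ProbabilityTheory Filter Matrix
open Vale.Agent.P166W (gauss Z gramDiff)
open scoped Topology RealInnerProductSpace

variable {N M : ℕ} {α : ℝ}

/-- A smooth step equal to one up to `c` and to zero from `c + 1` on. -/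
lemma exists_step (c : ℝ) :
    ∃ S : Step, (∀ x, x ≤ c → S.ψ x = 1) ∧ ∀ x, c + 1 ≤ x → S.ψ x = 0 := by
  set ψ := fun x : ℝ => 1 - Real.smoothTransition (x - c) with hψ
  have hs : ContDiff ℝ 2 ψ :=
    contDiff_const.sub (Real.smoothTransition.contDiff.comp (contDiff_id.sub contDiff_const))
  have hd : ContDiff ℝ 1 (deriv ψ) := (contDiff_succ_iff_deriv.1 (show ContDiff ℝ (1 + 1) ψ from hs)).2.2
  have hd2 : Continuous (deriv (deriv ψ)) := hd.continuous_deriv le_rfl
  have hout : ∀ x, x ∉ Set.Icc c (c + 1) → deriv ψ x = 0 ∧ deriv (deriv ψ) x = 0 := fun x hx => by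
    obtain ⟨k, hk⟩ : ∃ k : ℝ, ψ =ᶠ[𝓝 x] fun _ => k := by
      rw [Set.mem_Icc, not_and_or, not_le, not_le] at hx
      rcases hx with h | h
      · exact ⟨1, (eventually_lt_nhds h).mono fun y hy => by
          simp [hψ, Real.smoothTransition.zero_of_nonpos (show y - c ≤ 0 by linarith)]⟩
      · exact ⟨0, (eventually_gt_nhds h).mono fun y hy => by
          simp [hψ, Real.smoothTransition.one_of_one_le (show 1 ≤ y - c by linarith)]⟩
    have h1 : deriv ψ =ᶠ[𝓝 x] fun _ => 0 := by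
      refine hk.deriv.mono fun y hy => ?_
      simpa using hy
    exact ⟨h1.eq_of_nhds, by rw [h1.deriv_eq, deriv_const]⟩
  obtain ⟨C1, hC1⟩ := (isCompact_Icc (a := c) (b := c + 1)).exists_bound_of_continuousOn hd.continuous.continuousOn
  obtain ⟨C2, hC2⟩ := (isCompact_Icc (a := c) (b := c + 1)).exists_bound_of_continuousOn hd2.continuousOn
  have hb : ∀ (f : ℝ → ℝ) (C : ℝ), (∀ x ∈ Set.Icc c (c + 1), ‖f x‖ ≤ C) →
      (∀ x, x ∉ Set.Icc c (c + 1) → f x = 0) → ∀ x, |f x| ≤ |C| := fun f C h h0 x => by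
    by_cases hx : x ∈ Set.Icc c (c + 1)
    · exact (h x hx).trans (le_abs_self C)
    · simp [h0 x hx]
  have hanti : Antitone ψ := fun x y hxy =>
    sub_le_sub_left (Real.smoothTransition.monotone (sub_le_sub_right hxy c)) 1
  refine ⟨⟨ψ, deriv ψ, deriv (deriv ψ), |C1| + |C2|,
    fun x => ((hs.differentiable (by norm_num)) x).hasDerivAt,
    fun x => ((hd.differentiable (by norm_num)) x).hasDerivAt, hd2,
    fun x => ⟨sub_nonneg.2 (Real.smoothTransition.le_one _), sub_le_self _ (Real.smoothTransition.nonneg _)⟩,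
    fun x => hanti.deriv_nonpos,
    fun x => (hb _ C1 hC1 (fun y hy => (hout y hy).1) x).trans (le_add_of_nonneg_right (abs_nonneg _)),
    fun x => (hb _ C2 hC2 (fun y hy => (hout y hy).2) x).trans (le_add_of_nonneg_left (abs_nonneg _))⟩,
    fun x hx => by simp [hψ, Real.smoothTransition.zero_of_nonpos (show x - c ≤ 0 by linarith)],
    fun x hx => by simp [hψ, Real.smoothTransition.one_of_one_le (show 1 ≤ x - c by linarith)]⟩

/-- The patterns for which some direction has energy below `b`. -/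
def lowSet (N M : ℕ) (b : ℝ) : Set (Fin M → Fin N → ℝ) :=
  {G | ∃ v : Fin N → ℝ, v ⬝ᵥ v = 1 ∧ v ⬝ᵥ (covW G *ᵥ v) < b}

lemma measurableSet_lowSet (b : ℝ) : MeasurableSet (lowSet N M b) := by
  have : lowSet N M b =
      ⋃ v ∈ {v : Fin N → ℝ | v ⬝ᵥ v = 1}, {G | v ⬝ᵥ (covW G *ᵥ v) < b} := by
    ext G; simp [lowSet]
  rw [this]
  refine (isOpen_biUnion fun v _ => isOpen_lt ?_ continuous_const).measurableSet
  simp_rw [dot_covW]
  simp only [dotProduct]
  fun_prop

lemma lowSet_eq_empty {b : ℝ} (hb : b ≤ 0) : lowSet N M b = ∅ := by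
  refine Set.eq_empty_of_forall_notMem fun G hG => ?_
  obtain ⟨v, -, hv⟩ := hG
  rw [dot_covW] at hv
  have : (0 : ℝ) ≤ (∑ k, (G k ⬝ᵥ v) ^ 2) / N := by positivity
  linarith

lemma measurePreserving_inl (ι κ : Type*) [Fintype ι] [Fintype κ] :
    MeasurePreserving (fun g : ι ⊕ κ → ℝ => fun i => g (Sum.inl i)) (gauss (ι ⊕ κ)) (gauss ι) :=
  (measurePreserving_fst (μ := gauss ι) (ν := gauss κ)).comp
    (measurePreserving_sumPiEquivProdPi (fun _ : ι ⊕ κ => gaussianReal 0 1))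

lemma measurePreserving_inr (ι κ : Type*) [Fintype ι] [Fintype κ] :
    MeasurePreserving (fun g : ι ⊕ κ → ℝ => fun i => g (Sum.inr i)) (gauss (ι ⊕ κ)) (gauss κ) :=
  (measurePreserving_snd (μ := gauss ι) (ν := gauss κ)).comp
    (measurePreserving_sumPiEquivProdPi (fun _ : ι ⊕ κ => gaussianReal 0 1))

lemma measurePreserving_curry (N M : ℕ) :
    MeasurePreserving (fun (g : Fin M × Fin N → ℝ) k i => g (k, i)) (gauss (Fin M × Fin N)) (patLaw N M) := by
  refine ⟨by fun_prop, ?_⟩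
  have h := Measure.infinitePi_map_curry (X := ℝ) fun (_ : Fin M) (_ : Fin N) => gaussianReal 0 1
  simp only [Measure.infinitePi_eq_pi] at h
  exact h

/-- The fluctuation constant of a squared Gaussian. -/
noncomputable def v4 : ℝ := variance (fun z : ℝ => z ^ 2) (gaussianReal 0 1)

lemma memLp_sq : MemLp (fun z : ℝ => z ^ 2) 2 (gaussianReal 0 1) := by
  rw [memLp_two_iff_integrable_sq (by fun_prop)]
  refine ((Vale.Agent.P166W.integrable_one_add_abs_pow 4)).mono' (by fun_prop) (Eventually.of_forall fun z => ?_)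
  rw [Real.norm_eq_abs, ← pow_mul, abs_pow]
  exact pow_le_pow_left₀ (abs_nonneg z) (by linarith) 4

/-- The law of the squared norm of a Gaussian vector concentrates. -/
lemma chi_tail (n : ℕ) {s : ℝ} (hs : 0 < s) :
    (gauss (Fin n)).real {g | s ≤ |∑ i, g i ^ 2 - n|} ≤ n * v4 / s ^ 2 := by
  have hmp : ∀ i : Fin n, MeasurePreserving (fun g : Fin n → ℝ => g i) (gauss (Fin n)) (gaussianReal 0 1) :=
    fun i => measurePreserving_eval (fun _ : Fin n => gaussianReal 0 1) i
  have hL : ∀ i : Fin n, MemLp (fun g : Fin n → ℝ => g i ^ 2) 2 (gauss (Fin n)) := fun i =>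
    memLp_sq.comp_measurePreserving (hmp i)
  have hsum : MemLp (fun g : Fin n → ℝ => ∑ i, g i ^ 2) 2 (gauss (Fin n)) :=
    memLp_finsetSum _ fun i _ => hL i
  have hmean : ∫ g : Fin n → ℝ, ∑ i, g i ^ 2 ∂gauss (Fin n) = n := by
    rw [integral_finsetSum _ fun i _ => (hL i).integrable one_le_two]
    have e : ∀ i : Fin n, ∫ g : Fin n → ℝ, g i ^ 2 ∂gauss (Fin n) = 1 := fun i => by
      rw [gauss, integral_comp_eval (μ := fun _ : Fin n => gaussianReal 0 1) (f := fun z : ℝ => z ^ 2)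
        (by fun_prop)]
      have := variance_fun_id_gaussianReal (μ := 0) (v := 1)
      rw [variance_of_integral_eq_zero (by fun_prop) (by simp)] at this
      simpa using this
    simp [e]
  have hind : iIndepFun (fun i (g : Fin n → ℝ) => g i ^ 2) (gauss (Fin n)) :=
    iIndepFun_pi (μ := fun _ : Fin n => gaussianReal 0 1) (X := fun _ (z : ℝ) => z ^ 2) fun i => by fun_prop
  have hvar : variance (fun g : Fin n → ℝ => ∑ i, g i ^ 2) (gauss (Fin n)) = n * v4 := by
    have e := IndepFun.variance_sum (μ := gauss (Fin n)) (s := Finset.univ)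
      (X := fun i (g : Fin n → ℝ) => g i ^ 2) (fun i _ => hL i) fun i _ j _ hij => hind.indepFun hij
    rw [show (∑ i : Fin n, fun g : Fin n → ℝ => g i ^ 2) = fun g => ∑ i, g i ^ 2 from
      funext fun g => Finset.sum_apply g _ _] at e
    rw [e]
    have e2 : ∀ i : Fin n, variance (fun g : Fin n → ℝ => g i ^ 2) (gauss (Fin n)) = v4 := fun i => by
      rw [v4, ← (hmp i).map_eq, variance_map (by fun_prop) (hmp i).measurable.aemeasurable]
      rfl
    simp [e2]
  have h := meas_ge_le_variance_div_sq hsum hs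
  rw [hmean, hvar] at h
  exact ENNReal.toReal_le_of_le_ofReal (div_nonneg (mul_nonneg (Nat.cast_nonneg _) (variance_nonneg _ _))
    (sq_nonneg s)) h

lemma toLp_norm_sq {n : ℕ} (g : Fin n → ℝ) :
    ‖(WithLp.toLp 2 g : EuclideanSpace ℝ (Fin n))‖ ^ 2 = ∑ i, g i ^ 2 := by
  simp [EuclideanSpace.norm_sq_eq]

lemma inner_toLp {n : ℕ} (f g : Fin n → ℝ) :
    ⟪(WithLp.toLp 2 f : EuclideanSpace ℝ (Fin n)), WithLp.toLp 2 g⟫ = f ⬝ᵥ g := by
  simp [PiLp.inner_apply, dotProduct, mul_comm]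

lemma exists_net (n : ℕ) {ε : ℝ} (hε : 0 < ε) :
    ∃ T : Finset (EuclideanSpace ℝ (Fin n)), (∀ u ∈ T, ‖u‖ = 1) ∧ ∀ x, ‖x‖ = 1 → ∃ u ∈ T, ‖x - u‖ ≤ ε := by
  obtain ⟨t, hts, htf, hcov⟩ :=
    finite_cover_balls_of_compact (isCompact_sphere (0 : EuclideanSpace ℝ (Fin n)) 1) hε
  refine ⟨htf.toFinset, fun u hu => ?_, fun x hx => ?_⟩
  · simpa using hts (htf.mem_toFinset.1 hu)
  · obtain ⟨u, hu, hxu⟩ := Set.mem_iUnion₂.1 (hcov (by simpa using hx : x ∈ Metric.sphere 0 1))
    exact ⟨u, htf.mem_toFinset.2 hu, by rw [← dist_eq_norm]; exact (Metric.mem_ball.1 hxu).le⟩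

/-- Gordon's bound on the probability of a low direction. -/
lemma lowSet_prob (hM : 0 < M) (hN : 0 < N) {b R δ : ℝ} (hR : 0 < R) (hδ : 0 < δ) (hδ1 : δ < 1)
    (hcond : Real.sqrt (b * N) + 2 * R + 1 ≤
      (1 - 1 / ((M : ℝ) + N + 1)) * Real.sqrt (M * (1 - δ)) - Real.sqrt (N * (1 + δ))) :
    (patLaw N M).real (lowSet N M b) ≤ 2 / R ^ 2 + v4 / (M * δ ^ 2) + v4 / (N * δ ^ 2) := by
  classical
  set ε : ℝ := 1 / ((M : ℝ) + N + 1) with hε
  have hε0 : 0 < ε := by positivity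
  have hε1 : ε ≤ 1 := (div_le_one (by positivity)).2 (by linarith [(Nat.cast_nonneg M : (0 : ℝ) ≤ M),
    (Nat.cast_nonneg N : (0 : ℝ) ≤ N)])
  obtain ⟨U, hU, hUc⟩ := exists_net M hε0
  obtain ⟨V, hV, hVc⟩ := exists_net N hε0
  set c := Real.sqrt (b * N) + 2 * R with hc
  obtain ⟨S, hS1, hS0⟩ := exists_step c
  set av : V × U → ((Fin M × Fin N) ⊕ Unit) ⊕ (Fin M ⊕ Fin N) → ℝ := fun p =>
    Sum.elim (fun _ => 0) (Sum.elim (fun k => p.2.1 k) fun i => p.1.1 i) with hav
  set bv : V × U → ((Fin M × Fin N) ⊕ Unit) ⊕ (Fin M ⊕ Fin N) → ℝ := fun p =>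
    Sum.elim (Sum.elim (fun q => p.2.1 q.1 * p.1.1 q.2) fun _ => 1) fun _ => 0 with hbv
  have hgram : ∀ p q : V × U, gramDiff av bv p q =
      (1 - ⟪p.2.1, q.2.1⟫) * (1 - ⟪p.1.1, q.1.1⟫) := fun p q => by
    simp only [gramDiff, hav, hbv, Fintype.sum_sum_type, Sum.elim_inl, Sum.elim_inr,
      Fintype.sum_prod_type, PiLp.inner_apply, RCLike.inner_apply, conj_trivial, mul_zero,
      Finset.sum_const_zero, add_zero, zero_add, one_mul, Finset.univ_unique, Finset.sum_singleton]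
    rw [show ∑ k, ∑ i, p.2.1 k * p.1.1 i * (q.2.1 k * q.1.1 i) =
      (∑ k, q.2.1 k * p.2.1 k) * ∑ i, q.1.1 i * p.1.1 i by
        rw [Finset.sum_mul_sum]
        exact Finset.sum_congr rfl fun k _ => Finset.sum_congr rfl fun i _ => by ring]
    simp only [mul_comm (p.2.1 _), mul_comm (p.1.1 _)]
    ring
  have hcs : ∀ {n : ℕ} (x y : EuclideanSpace ℝ (Fin n)), ‖x‖ = 1 → ‖y‖ = 1 → ⟪x, y⟫ ≤ 1 :=
    fun x y hx hy => (real_inner_le_norm x y).trans (by rw [hx, hy, one_mul])
  have hg := S.gordon av bv (fun p q => by simp [hav, hbv, Fintype.sum_sum_type])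
    (fun p q h => by
      rw [hgram, h, real_inner_self_eq_norm_sq, hV _ p.1.2]; ring)
    fun p q _ => by
      rw [hgram]
      exact mul_nonneg (sub_nonneg.2 (hcs _ _ (hU _ p.2.2) (hU _ q.2.2)))
        (sub_nonneg.2 (hcs _ _ (hV _ p.1.2) (hV _ q.1.2)))
  set π := gauss (((Fin M × Fin N) ⊕ Unit) ⊕ (Fin M ⊕ Fin N))
  have hpG : MeasurePreserving (fun (g : ((Fin M × Fin N) ⊕ Unit) ⊕ (Fin M ⊕ Fin N) → ℝ) k i =>
      g (.inl (.inl (k, i)))) π (patLaw N M) :=
    (measurePreserving_curry N M).comp ((measurePreserving_inl _ _).comp (measurePreserving_inl _ _))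
  have hpZ : MeasurePreserving (fun (g : ((Fin M × Fin N) ⊕ Unit) ⊕ (Fin M ⊕ Fin N) → ℝ) =>
      g (.inl (.inr ()))) π (gaussianReal 0 1) :=
    (measurePreserving_eval (fun _ : Unit => gaussianReal 0 1) ()).comp
      ((measurePreserving_inr _ _).comp (measurePreserving_inl _ _))
  have hpg : MeasurePreserving (fun (g : ((Fin M × Fin N) ⊕ Unit) ⊕ (Fin M ⊕ Fin N) → ℝ) k =>
      g (.inr (.inl k))) π (gauss (Fin M)) :=
    (measurePreserving_inl _ _).comp (measurePreserving_inr _ _)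
  have hph : MeasurePreserving (fun (g : ((Fin M × Fin N) ⊕ Unit) ⊕ (Fin M ⊕ Fin N) → ℝ) k =>
      g (.inr (.inr k))) π (gauss (Fin N)) :=
    (measurePreserving_inr _ _).comp (measurePreserving_inr _ _)
  set E1 := {G : Fin M → Fin N → ℝ | R ^ 2 * ((M : ℝ) * N) ≤ ∑ k, ∑ i, G k i ^ 2}
  set E2 := {z : ℝ | R ^ 2 ≤ z ^ 2}
  set E3 := {g : Fin M → ℝ | (M : ℝ) * δ ≤ |∑ i, g i ^ 2 - M|}
  set E4 := {g : Fin N → ℝ | (N : ℝ) * δ ≤ |∑ i, g i ^ 2 - N|}
  have hE1 : (patLaw N M).real E1 ≤ 1 / R ^ 2 := by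
    have hi : ∀ k i, Integrable (fun G : Fin M → Fin N → ℝ => G k i ^ 2) (patLaw N M) ∧
        ∫ G : Fin M → Fin N → ℝ, G k i ^ 2 ∂patLaw N M = 1 := fun k i => by
      have hm : MeasurePreserving (fun G : Fin M → Fin N → ℝ => G k i) (patLaw N M) (gaussianReal 0 1) :=
        (measurePreserving_eval (fun _ : Fin N => gaussianReal 0 1) i).comp
          (measurePreserving_eval (fun _ : Fin M => gauss (Fin N)) k)
      refine ⟨hm.integrable_comp_of_integrable (memLp_sq.integrable one_le_two), ?_⟩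
      have h : ∫ z : ℝ, z ^ 2 ∂gaussianReal 0 1 = 1 := by
        have := variance_fun_id_gaussianReal (μ := 0) (v := 1)
        rw [variance_of_integral_eq_zero (by fun_prop) (by simp)] at this
        simpa using this
      rw [← hm.map_eq, integral_map hm.measurable.aemeasurable (by fun_prop)] at h
      exact h
    have h := mul_meas_ge_le_integral_of_nonneg (μ := patLaw N M)
      (f := fun G => ∑ k, ∑ i, G k i ^ 2) (Eventually.of_forall fun G => by positivity)
      (integrable_finsetSum _ fun k _ => integrable_finsetSum _ fun i _ => (hi k i).1) (R ^ 2 * ((M : ℝ) * N))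
    rw [integral_finsetSum _ fun k _ => integrable_finsetSum _ fun i _ => (hi k i).1] at h
    simp only [integral_finsetSum _ fun i _ => (hi _ i).1, (hi _ _).2, Finset.sum_const, Finset.card_univ,
      Fintype.card_fin, nsmul_eq_mul, mul_one] at h
    rw [le_div_iff₀ (by positivity), mul_comm]
    have hMN : (0 : ℝ) < (M : ℝ) * N := by positivity
    nlinarith
  have hE2 : (gaussianReal 0 1).real E2 ≤ 1 / R ^ 2 := by
    have h := mul_meas_ge_le_integral_of_nonneg (μ := gaussianReal 0 1) (f := fun z : ℝ => z ^ 2)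
      (Eventually.of_forall fun z => sq_nonneg z) (memLp_sq.integrable one_le_two) (R ^ 2)
    have e := variance_fun_id_gaussianReal (μ := 0) (v := 1)
    rw [variance_of_integral_eq_zero (by fun_prop) (by simp)] at e
    simp only [NNReal.coe_one] at e
    rw [e] at h
    rw [le_div_iff₀ (by positivity), mul_comm]
    exact h
  -- the comparison
  have hF0 : ∀ g, (fun k i => g (.inl (.inl (k, i)))) ∈ lowSet N M b → (fun k i => g (.inl (.inl (k, i)))) ∉ E1 →
      g (.inl (.inr ())) ∉ E2 → S.gF (Z av bv 1 g) = 0 := fun g hlow h1 h2 => by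
    obtain ⟨v, hv1, hv2⟩ := hlow
    set G : Fin M → Fin N → ℝ := fun k i => g (.inl (.inl (k, i)))
    obtain ⟨w, hw, hvw⟩ := hVc (WithLp.toLp 2 v) (by
      rw [← Real.sqrt_sq (norm_nonneg _), toLp_norm_sq,
        show ∑ i, v i ^ 2 = 1 by simpa [dotProduct, pow_two] using hv1, Real.sqrt_one])
    set Gv : EuclideanSpace ℝ (Fin M) := WithLp.toLp 2 fun k => G k ⬝ᵥ v
    set Gw : EuclideanSpace ℝ (Fin M) := WithLp.toLp 2 fun k => G k ⬝ᵥ (w : Fin N → ℝ)
    have hgv : ‖Gv‖ ≤ Real.sqrt (b * N) := by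
      rw [dot_covW, div_lt_iff₀ (by exact_mod_cast hN)] at hv2
      exact Real.le_sqrt_of_sq_le (by rw [toLp_norm_sq]; exact hv2.le)
    have hdiff : ‖Gw - Gv‖ ≤ ε * (R * Real.sqrt ((M : ℝ) * N)) := by
      have hlt : ∑ k, ∑ i, G k i ^ 2 ≤ (R * Real.sqrt ((M : ℝ) * N)) ^ 2 := by
        simp only [E1, Set.mem_ofPred_eq, not_le] at h1
        rw [mul_pow, Real.sq_sqrt (by positivity)]
        exact h1.le
      refine abs_le_of_sq_le_sq' ?_ (by positivity) |>.2
      rw [mul_pow, show Gw - Gv = WithLp.toLp 2 fun k => G k ⬝ᵥ ((w : Fin N → ℝ) - v) by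
        simp only [Gw, Gv, ← WithLp.toLp_sub]; congr 1; funext k; simp [dotProduct_sub], toLp_norm_sq]
      refine (Finset.sum_le_sum (g := fun k => ε ^ 2 * ∑ i, G k i ^ 2) fun k _ => ?_).trans ?_
      · rw [dotProduct, mul_comm (ε ^ 2)]
        refine (Finset.sum_mul_sq_le_sq_mul_sq _ _ _).trans (mul_le_mul_of_nonneg_left ?_ (by positivity))
        have h3 := pow_le_pow_left₀ (norm_nonneg _) hvw 2
        rw [norm_sub_rev, EuclideanSpace.norm_sq_eq] at h3
        simpa using h3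
      · rw [← Finset.mul_sum]
        exact mul_le_mul_of_nonneg_left hlt (sq_nonneg ε)
    have hεR : ε * (R * Real.sqrt ((M : ℝ) * N)) ≤ R := by
      have : Real.sqrt ((M : ℝ) * N) ≤ (M : ℝ) + N + 1 := (Real.sqrt_le_left (by positivity)).2 (by
        nlinarith [(Nat.cast_nonneg M : (0 : ℝ) ≤ M), (Nat.cast_nonneg N : (0 : ℝ) ≤ N)])
      rw [hε, one_div_mul_eq_div, div_le_iff₀ (by positivity)]
      exact mul_le_mul_of_nonneg_left this hR.le
    have hzR : g (.inl (.inr ())) ≤ R := by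
      simp only [E2, Set.mem_ofPred_eq, not_le] at h2
      nlinarith [abs_lt.1 (abs_lt_of_sq_lt_sq h2 hR.le)]
    refine Finset.prod_eq_zero (Finset.mem_univ ⟨w, hw⟩) (sub_eq_zero.2 (Eq.symm ?_))
    refine Finset.prod_eq_one fun u _ => hS1 _ ?_
    have e : Z av bv 1 g (⟨w, hw⟩, u) = ⟪(u : EuclideanSpace ℝ (Fin M)), Gw⟫ + g (.inl (.inr ())) := by
      simp only [Z, hav, hbv, sub_self, Real.sqrt_zero, Real.sqrt_one, zero_mul, zero_add, one_mul,
        Fintype.sum_sum_type, Sum.elim_inl, Sum.elim_inr, Fintype.sum_prod_type, Finset.sum_const_zero,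
        add_zero, Finset.univ_unique, Finset.sum_singleton, Gw, PiLp.inner_apply, RCLike.inner_apply,
        conj_trivial, dotProduct, Finset.sum_mul, G]
      congr 1
      exact Finset.sum_congr rfl fun k _ => Finset.sum_congr rfl fun i _ => by ring
    show Z av bv 1 g (⟨w, hw⟩, u) ≤ c
    rw [e, hc]
    have h4 := real_inner_le_norm (u : EuclideanSpace ℝ (Fin M)) Gw
    rw [hU _ u.2, one_mul] at h4
    linarith [norm_le_norm_add_norm_sub' Gw Gv]
  have hF1 : ∀ g, (fun k => g (.inr (.inl k))) ∉ E3 → (fun k => g (.inr (.inr k))) ∉ E4 →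
      S.gF (Z av bv 0 g) = 1 := fun g h3 h4 => by
    set x : EuclideanSpace ℝ (Fin M) := WithLp.toLp 2 fun k => g (.inr (.inl k))
    set y : EuclideanSpace ℝ (Fin N) := WithLp.toLp 2 fun k => g (.inr (.inr k))
    simp only [E3, E4, Set.mem_ofPred_eq, not_le, abs_lt] at h3 h4
    have hx : Real.sqrt (M * (1 - δ)) ≤ ‖x‖ :=
      (Real.sqrt_le_left (norm_nonneg _)).2 (by rw [toLp_norm_sq]; linarith [h3.1])
    have hy : ‖y‖ ≤ Real.sqrt (N * (1 + δ)) :=
      Real.le_sqrt_of_sq_le (by rw [toLp_norm_sq]; linarith [h4.2])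
    refine Finset.prod_eq_one fun v _ => sub_eq_self.2 ?_
    have hx0 : 0 < ‖x‖ := (Real.sqrt_pos.2 (by have : (0 : ℝ) < M := by exact_mod_cast hM
                                               nlinarith)).trans_le hx
    obtain ⟨u, hu, hxu⟩ := hUc (‖x‖⁻¹ • x) (by rw [norm_smul, norm_inv, norm_norm, inv_mul_cancel₀ hx0.ne'])
    refine Finset.prod_eq_zero (Finset.mem_univ ⟨u, hu⟩) (hS0 _ ?_)
    have e : Z av bv 0 g (v, ⟨u, hu⟩) = ⟪u, x⟫ + ⟪(v : EuclideanSpace ℝ (Fin N)), y⟫ := by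
      simp only [Z, hav, hbv, sub_zero, Real.sqrt_zero, Real.sqrt_one, zero_mul, add_zero, one_mul,
        Fintype.sum_sum_type, Sum.elim_inl, Sum.elim_inr, Finset.sum_const_zero, zero_add, x, y,
        PiLp.inner_apply, RCLike.inner_apply, conj_trivial]
      congr 1 <;> exact Finset.sum_congr rfl fun k _ => by ring
    show c + 1 ≤ Z av bv 0 g (v, ⟨u, hu⟩)
    rw [e]
    have h5 : ⟪u, x⟫ ≥ (1 - ε) * ‖x‖ := by
      have h6 : ⟪‖x‖⁻¹ • x - u, x⟫ ≤ ε * ‖x‖ :=
        (real_inner_le_norm _ _).trans (mul_le_mul_of_nonneg_right hxu (norm_nonneg _))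
      rw [inner_sub_left, real_inner_smul_left, real_inner_self_eq_norm_sq] at h6
      have : ‖x‖⁻¹ * ‖x‖ ^ 2 = ‖x‖ := by field_simp
      linarith
    have h7 := (abs_le.1 ((abs_real_inner_le_norm (v : EuclideanSpace ℝ (Fin N)) y).trans
      (by rw [hV _ v.2, one_mul]))).1
    have h8 : (1 - ε) * Real.sqrt (M * (1 - δ)) ≤ (1 - ε) * ‖x‖ :=
      mul_le_mul_of_nonneg_left hx (by linarith)
    linarith
  set p1 := fun (g : ((Fin M × Fin N) ⊕ Unit) ⊕ (Fin M ⊕ Fin N) → ℝ) k i => g (.inl (.inl (k, i)))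
  have hint : ∀ t ∈ Set.Icc (0 : ℝ) 1, Integrable (fun g => 1 - S.gF (Z av bv t g)) π := fun t ht =>
    (integrable_const 1).sub (Vale.Agent.P166W.integrable_comp av bv S.tame_gF ht)
  have key : π.real (p1 ⁻¹' lowSet N M b) ≤
      π.real (p1 ⁻¹' E1) + π.real ((fun g => g (.inl (.inr ()))) ⁻¹' E2) + ∫ g, (1 - S.gF (Z av bv 1 g)) ∂π := by
    have hsub : p1 ⁻¹' lowSet N M b ⊆ (p1 ⁻¹' E1 ∪ (fun g => g (.inl (.inr ()))) ⁻¹' E2) ∪
        {g | 1 ≤ 1 - S.gF (Z av bv 1 g)} := fun g hg => by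
      by_cases h1 : g ∈ p1 ⁻¹' E1
      · exact Or.inl (Or.inl h1)
      by_cases h2 : g (.inl (.inr ())) ∈ E2
      · exact Or.inl (Or.inr h2)
      right
      show (1 : ℝ) ≤ _
      rw [hF0 g hg h1 h2, sub_zero]
    refine (measureReal_mono hsub).trans ((measureReal_union_le _ _).trans
      (add_le_add (measureReal_union_le _ _) ?_))
    simpa using mul_meas_ge_le_integral_of_nonneg (μ := π)
      (Eventually.of_forall fun g => sub_nonneg.2 (S.gF_mem _).2) (hint 1 (Set.right_mem_Icc.2 zero_le_one)) 1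
  have h34 : ∫ g, (1 - S.gF (Z av bv 0 g)) ∂π ≤
      π.real ((fun g k => g (.inr (.inl k))) ⁻¹' E3) + π.real ((fun g k => g (.inr (.inr k))) ⁻¹' E4) := by
    set A := ((fun g k => g (.inr (.inl k))) ⁻¹' E3 ∪ (fun g k => g (.inr (.inr k))) ⁻¹' E4 :
      Set (((Fin M × Fin N) ⊕ Unit) ⊕ (Fin M ⊕ Fin N) → ℝ))
    have hA : MeasurableSet A :=
      (hpg.measurable (measurableSet_le (by fun_prop) (by fun_prop))).union
        (hph.measurable (measurableSet_le (by fun_prop) (by fun_prop)))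
    refine ((integral_mono (g := A.indicator fun _ => (1 : ℝ)) (hint 0 (Set.left_mem_Icc.2 zero_le_one))
      ((integrable_const (1 : ℝ)).indicator hA) fun g => ?_).trans_eq (integral_indicator_one hA)).trans
      (measureReal_union_le _ _)
    by_cases hg : g ∈ A
    · rw [Set.indicator_of_mem hg]; linarith [(S.gF_mem (Z av bv 0 g)).1]
    · rw [Set.indicator_of_notMem hg]
      simp only [A, Set.mem_union, Set.mem_preimage, not_or] at hg
      rw [hF1 g hg.1 hg.2, sub_self]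
  have hcomp : ∫ g, (1 - S.gF (Z av bv 1 g)) ∂π ≤ ∫ g, (1 - S.gF (Z av bv 0 g)) ∂π := by
    rw [integral_sub (integrable_const _) (Vale.Agent.P166W.integrable_comp av bv S.tame_gF
        (Set.right_mem_Icc.2 zero_le_one)),
      integral_sub (integrable_const _) (Vale.Agent.P166W.integrable_comp av bv S.tame_gF
        (Set.left_mem_Icc.2 zero_le_one))]
    linarith
  have hm1 : MeasurableSet E1 := measurableSet_le measurable_const (by fun_prop)
  rw [measureReal_def, ← hpG.measure_preimage (measurableSet_lowSet b).nullMeasurableSet, ← measureReal_def]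
  have r1 : π.real (p1 ⁻¹' E1) = (patLaw N M).real E1 := by
    rw [measureReal_def, hpG.measure_preimage hm1.nullMeasurableSet, ← measureReal_def]
  have r2 : π.real ((fun g => g (.inl (.inr ()))) ⁻¹' E2) = (gaussianReal 0 1).real E2 := by
    rw [measureReal_def, hpZ.measure_preimage (measurableSet_le measurable_const (by fun_prop)).nullMeasurableSet,
      ← measureReal_def]
  have r3 : π.real ((fun g k => g (.inr (.inl k))) ⁻¹' E3) = (gauss (Fin M)).real E3 := by
    rw [measureReal_def, hpg.measure_preimage (measurableSet_le measurable_const (by fun_prop)).nullMeasurableSet,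
      ← measureReal_def]
  have r4 : π.real ((fun g k => g (.inr (.inr k))) ⁻¹' E4) = (gauss (Fin N)).real E4 := by
    rw [measureReal_def, hph.measure_preimage (measurableSet_le measurable_const (by fun_prop)).nullMeasurableSet,
      ← measureReal_def]
  have c3 := chi_tail M (mul_pos (show (0 : ℝ) < M by exact_mod_cast hM) hδ)
  have c4 := chi_tail N (mul_pos (show (0 : ℝ) < N by exact_mod_cast hN) hδ)
  have s3 : (M : ℝ) * v4 / ((M : ℝ) * δ) ^ 2 = v4 / (M * δ ^ 2) := by field_simp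
  have s4 : (N : ℝ) * v4 / ((N : ℝ) * δ) ^ 2 = v4 / (N * δ ^ 2) := by field_simp
  rw [s3] at c3
  rw [s4] at c4
  have : (2 : ℝ) / R ^ 2 = 1 / R ^ 2 + 1 / R ^ 2 := by ring
  linarith

/-- No eigenvalue lies below the lower edge, with high probability. -/
theorem edge_prob (hα : 0 < α) {b : ℝ} (hb : b < edgeLo α) :
    Tendsto (fun N => (patLaw N ⌊α * N⌋₊).real (lowSet N ⌊α * N⌋₊ b)) atTop (𝓝 0) := by
  rcases le_or_gt b 0 with h0 | h0
  · simp [lowSet_eq_empty h0]
  have h1 : 1 < α := by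
    by_contra h
    rw [edgeLo, if_pos (not_lt.1 h)] at hb
    linarith
  rw [edgeLo, if_neg (not_le.2 h1), mpLo] at hb
  have hs : 1 < Real.sqrt α := by
    rw [Real.lt_sqrt zero_le_one, one_pow]; exact h1
  have hsb : Real.sqrt b < Real.sqrt α - 1 := by
    rw [Real.sqrt_lt' (by linarith)]; linarith [show (1 - Real.sqrt α) ^ 2 = (Real.sqrt α - 1) ^ 2 by ring]
  have hc : Tendsto (fun δ : ℝ => Real.sqrt (α * (1 - δ)) - Real.sqrt (1 + δ)) (𝓝[>] 0)
      (𝓝 (Real.sqrt α - 1)) := by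
    have := ((by fun_prop : Continuous fun δ : ℝ => Real.sqrt (α * (1 - δ)) - Real.sqrt (1 + δ)).tendsto 0)
    simp only [sub_zero, mul_one, add_zero, Real.sqrt_one] at this
    exact this.mono_left nhdsWithin_le_nhds
  obtain ⟨δ, hδ, hδ'⟩ := ((hc.eventually_const_lt hsb).and (Ioo_mem_nhdsGT one_pos)).exists
  refine Metric.tendsto_nhds.2 fun ζ hζ => ?_
  set R := Real.sqrt (8 / ζ)
  have hR : 0 < R := Real.sqrt_pos.2 (by positivity)
  have hR2 : 2 / R ^ 2 = ζ / 4 := by rw [Real.sq_sqrt (by positivity)]; field_simp; norm_num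
  set m := fun N : ℕ => (⌊α * (N : ℝ)⌋₊ : ℝ)
  have hfl : Tendsto (fun N : ℕ => m N / N) atTop (𝓝 α) :=
    (tendsto_nat_floor_mul_div_atTop hα.le).comp tendsto_natCast_atTop_atTop
  have hM : Tendsto m atTop atTop :=
    tendsto_natCast_atTop_atTop.comp (tendsto_nat_floor_atTop.comp
      (tendsto_natCast_atTop_atTop.const_mul_atTop hα))
  have hv : Tendsto (fun N : ℕ => v4 / (m N * δ ^ 2) + v4 / ((N : ℝ) * δ ^ 2)) atTop (𝓝 (0 + 0)) :=
    (tendsto_const_nhds.div_atTop (hM.atTop_mul_const (by positivity [hδ'.1]))).add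
      (tendsto_const_nhds.div_atTop (tendsto_natCast_atTop_atTop.atTop_mul_const (by positivity [hδ'.1])))
  have hlhs : Tendsto (fun N : ℕ => Real.sqrt b + (2 * R + 1) / Real.sqrt N) atTop (𝓝 (Real.sqrt b + 0)) :=
    tendsto_const_nhds.add (tendsto_const_nhds.div_atTop (Real.tendsto_sqrt_atTop.comp tendsto_natCast_atTop_atTop))
  have hrhs : Tendsto (fun N : ℕ => (1 - 1 / (m N + N + 1)) * Real.sqrt (m N / N * (1 - δ)) - Real.sqrt (1 + δ))
      atTop (𝓝 ((1 - 0) * Real.sqrt (α * (1 - δ)) - Real.sqrt (1 + δ))) :=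
    ((tendsto_const_nhds.sub (tendsto_const_nhds.div_atTop (tendsto_atTop_add_const_right _ 1
      (tendsto_atTop_mono (fun N => le_add_of_nonneg_right (Nat.cast_nonneg _)) hM)))).mul
        ((hfl.mul_const (1 - δ)).sqrt)).sub_const _
  filter_upwards [hlhs.eventually_lt hrhs (by simpa using hδ), hv.eventually_lt_const (show (0 : ℝ) + 0 < ζ / 4 by linarith),
    eventually_gt_atTop 0, hM.eventually_gt_atTop 0] with N e1 e2 hN hM0
  have hN' : (0 : ℝ) < N := by exact_mod_cast hN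
  have hs0 : 0 < Real.sqrt N := Real.sqrt_pos.2 hN'
  have hcond : Real.sqrt (b * N) + 2 * R + 1 ≤
      (1 - 1 / (m N + N + 1)) * Real.sqrt (m N * (1 - δ)) - Real.sqrt (N * (1 + δ)) := by
    have r1 : Real.sqrt (m N * (1 - δ)) = Real.sqrt (m N / N * (1 - δ)) * Real.sqrt N := by
      rw [← Real.sqrt_mul (mul_nonneg (div_nonneg hM0.le hN'.le) (by linarith [hδ'.2]))]
      congr 1
      field_simp
    have r2 : Real.sqrt ((N : ℝ) * (1 + δ)) = Real.sqrt (1 + δ) * Real.sqrt N := by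
      rw [← Real.sqrt_mul (by linarith [hδ'.1]), mul_comm]
    rw [r1, r2, Real.sqrt_mul h0.le]
    have := mul_le_mul_of_nonneg_right e1.le hs0.le
    rw [add_mul, div_mul_cancel₀ _ hs0.ne'] at this
    nlinarith
  have := lowSet_prob (b := b) (M := ⌊α * (N : ℝ)⌋₊) (by simpa [m] using hM0) hN hR hδ'.1 hδ'.2 hcond
  rw [Real.dist_eq, sub_zero, abs_of_nonneg measureReal_nonneg]
  simp only [m] at e2
  linarith

end Vale.Agent.P166N.Spectrum
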