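import Mathlib

/-!
Weak convergence of nonnegative arrays from countably many Stieltjes transforms.
-/

namespace Vale.Agent.P166N.Spectrum

open MeasureTheory Filter
open scoped Topology BoundedContinuousFunction

/-- The kernel of the Stieltjes transform at `-s`. -/
noncomputable def hS (s x : ℝ) : ℝ := (max x 0 + s)⁻¹

/-- A countable family of arguments accumulating at `1`. -/
noncomputable def sArg (q : ℕ) : ℝ :=
  1 + ((Nat.unpair q).1 : ℝ) / ((Nat.unpair q).2 + 1)

lemma one_le_sArg (q : ℕ) : 1 ≤ sArg q := le_add_of_nonneg_right (by positivity)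

/-- The empirical average. -/
noncomputable def avg {N : ℕ} (l : Fin N → ℝ) (φ : ℝ → ℝ) : ℝ := (N : ℝ)⁻¹ * ∑ i, φ (l i)

lemma continuous_hS {s : ℝ} (hs : 0 < s) : Continuous (hS s) :=
  ((continuous_id.max continuous_const).add_const s).inv₀ fun x => by
    dsimp; linarith [le_max_right x 0]

lemma hS_mem {s : ℝ} (hs : 1 ≤ s) (x : ℝ) : hS s x ∈ Set.Icc 0 1 :=
  ⟨inv_nonneg.2 (by linarith [le_max_right x 0]),
    inv_le_one_of_one_le₀ (by linarith [le_max_right x 0])⟩

lemma abs_hS_sub_le {s : ℝ} (hs : 1 ≤ s) (x y : ℝ) : |hS s x - hS s y| ≤ |x - y| := by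
  have hx := le_max_right x 0
  have hy := le_max_right y 0
  simp only [hS]
  rw [inv_sub_inv (by linarith) (by linarith), abs_div, abs_of_pos (mul_pos
    (by linarith : (0 : ℝ) < max x 0 + s) (by linarith : (0 : ℝ) < max y 0 + s))]
  refine (div_le_self (abs_nonneg _) (one_le_mul_of_one_le_of_one_le (by linarith) (by linarith))).trans ?_
  rw [add_sub_add_right_eq_sub, abs_sub_comm]
  exact abs_max_sub_max_le_abs x y 0

variable {μ : Measure ℝ} [IsProbabilityMeasure μ] {l : (N : ℕ) → Fin N → ℝ}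

/-- The averages of `φ` tend to its integral. -/
def Conv1 (μ : Measure ℝ) (l : (N : ℕ) → Fin N → ℝ) (φ : ℝ → ℝ) : Prop :=
  Tendsto (fun N => avg (l N) φ) atTop (𝓝 (∫ x, φ x ∂μ))

lemma avg_sub {N : ℕ} (v : Fin N → ℝ) (φ ψ : ℝ → ℝ) :
    avg v (fun x => φ x - ψ x) = avg v φ - avg v ψ := by
  simp [avg, Finset.sum_sub_distrib, mul_sub]

omit [IsProbabilityMeasure μ] in
lemma Conv1.sub {φ ψ : ℝ → ℝ} (h : Conv1 μ l φ) (h' : Conv1 μ l ψ) (hi : Integrable φ μ)
    (hi' : Integrable ψ μ) : Conv1 μ l fun x => φ x - ψ x := by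
  simp only [Conv1, avg_sub, integral_sub hi hi']
  exact Tendsto.sub h h'

omit [IsProbabilityMeasure μ] in
lemma Conv1.add {φ ψ : ℝ → ℝ} (h : Conv1 μ l φ) (h' : Conv1 μ l ψ) (hi : Integrable φ μ)
    (hi' : Integrable ψ μ) : Conv1 μ l fun x => φ x + ψ x := by
  simp only [Conv1, avg, Finset.sum_add_distrib, mul_add, integral_add hi hi']
  exact Tendsto.add h h'

omit [IsProbabilityMeasure μ] in
lemma Conv1.const_mul {φ : ℝ → ℝ} (h : Conv1 μ l φ) (a : ℝ) : Conv1 μ l fun x => a * φ x := by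
  simp only [Conv1, avg, ← Finset.mul_sum, mul_left_comm _ a, integral_const_mul]
  exact Tendsto.const_mul a h

lemma conv1_const (a : ℝ) : Conv1 μ l fun _ => a := by
  rw [Conv1, integral_const, probReal_univ, one_smul]
  refine tendsto_const_nhds.congr' ((eventually_gt_atTop 0).mono fun N hN => ?_)
  simp [avg, hN.ne']

lemma integrable_of_abs_le {φ : ℝ → ℝ} (hφ : Continuous φ) {C : ℝ} (hC : ∀ x, |φ x| ≤ C) :
    Integrable φ μ :=
  Integrable.of_bound hφ.aestronglyMeasurable C (Eventually.of_forall fun x => hC x)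

omit [IsProbabilityMeasure μ] in
/-- Approximation up to a function with small averages. -/
lemma conv1_of_approx {φ : ℝ → ℝ} (hi : Integrable φ μ)
    (h : ∀ ε, 0 < ε → ∃ ψ, Integrable ψ μ ∧ Conv1 μ l ψ ∧ (∀ᶠ N in atTop, |avg (l N) φ - avg (l N) ψ| ≤ ε) ∧
      |∫ x, φ x ∂μ - ∫ x, ψ x ∂μ| ≤ ε) : Conv1 μ l φ := by
  refine Metric.tendsto_nhds.2 fun ε hε => ?_
  obtain ⟨ψ, _, hc, h1, h2⟩ := h (ε / 4) (by linarith)
  filter_upwards [h1, Metric.tendsto_nhds.1 hc (ε / 4) (by linarith)] with N e1 e2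
  rw [Real.dist_eq] at e2 ⊢
  have := abs_le.1 h2
  have := abs_le.1 e1
  have := abs_lt.1 e2
  rw [abs_lt]
  constructor <;> linarith

lemma abs_avg_sub_le {N : ℕ} (v : Fin N → ℝ) {φ ψ : ℝ → ℝ} {ε : ℝ} (hε : 0 ≤ ε)
    (h : ∀ i, |φ (v i) - ψ (v i)| ≤ ε) : |avg v φ - avg v ψ| ≤ ε := by
  rcases Nat.eq_zero_or_pos N with rfl | hN
  · simpa [avg] using hε
  · have hN' : (0 : ℝ) < N := by exact_mod_cast hN
    rw [← avg_sub, avg, abs_mul, abs_of_pos (inv_pos.2 hN'), inv_mul_le_iff₀ hN']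
    refine (Finset.abs_sum_le_sum_abs _ _).trans ((Finset.sum_le_sum fun i _ => h i).trans_eq ?_)
    simp

lemma abs_integral_sub_le {φ ψ : ℝ → ℝ} (hi : Integrable φ μ) (hi' : Integrable ψ μ) {ε : ℝ}
    (h : ∀ᵐ x ∂μ, |φ x - ψ x| ≤ ε) : |∫ x, φ x ∂μ - ∫ x, ψ x ∂μ| ≤ ε := by
  rw [← integral_sub hi hi', ← Real.norm_eq_abs]
  exact (norm_integral_le_of_norm_le_const (C := ε) h).trans_eq (by simp)

/-- Products of kernels at distinct arguments. -/
noncomputable def prodS (L : List ℝ) (x : ℝ) : ℝ := (L.map fun s => hS s x).prod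

lemma prodS_facts : ∀ (L : List ℝ), (∀ s ∈ L, 1 ≤ s) →
    Continuous (prodS L) ∧ ∀ x, prodS L x ∈ Set.Icc (0 : ℝ) 1
  | [], _ => ⟨continuous_const (y := (1 : ℝ)), fun x => ⟨zero_le_one, le_rfl⟩⟩
  | a :: L, h => by
    obtain ⟨hc, hm⟩ := prodS_facts L fun s hs => h s (List.mem_cons_of_mem _ hs)
    have ha := h a (List.mem_cons_self ..)
    simp only [prodS, List.map_cons, List.prod_cons]
    exact ⟨(continuous_hS (by linarith)).mul hc, fun x => ⟨mul_nonneg (hS_mem ha x).1 (hm x).1,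
      mul_le_one₀ (hS_mem ha x).2 (hm x).1 (hm x).2⟩⟩

lemma integrable_prodS (L : List ℝ) (h : ∀ s ∈ L, 1 ≤ s) : Integrable (prodS L) μ := by
  obtain ⟨hc, hm⟩ := prodS_facts L h
  exact integrable_of_abs_le hc fun x => by rw [abs_of_nonneg (hm x).1]; exact (hm x).2

lemma conv1_prodS (hq : ∀ q, Conv1 μ l (hS (sArg q))) : ∀ (L : List ℝ), L.Nodup →
    (∀ s ∈ L, ∃ q, sArg q = s) → Conv1 μ l (prodS L)
  | [], _, _ => conv1_const (μ := μ) (l := l) 1
  | [a], _, h => by
    obtain ⟨q, rfl⟩ := h a (List.mem_cons_self ..)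
    have e : prodS [sArg q] = hS (sArg q) := funext fun x => by simp [prodS]
    rw [e]; exact hq q
  | a :: b :: L, hn, h => by
    have h1 : ∀ s ∈ a :: b :: L, 1 ≤ s := fun s hs => by
      obtain ⟨q, rfl⟩ := h s hs; exact one_le_sArg q
    obtain ⟨hab, hn'⟩ := List.nodup_cons.1 hn
    obtain ⟨hbL, hnL⟩ := List.nodup_cons.1 hn'
    simp only [List.mem_cons, not_or] at hab
    have i1 : ∀ s ∈ a :: L, 1 ≤ s := fun s hs => h1 s (by simp at hs ⊢; tauto)
    have i2 : ∀ s ∈ b :: L, 1 ≤ s := fun s hs => h1 s (by simp at hs ⊢; tauto)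
    have c1 := conv1_prodS hq (a :: L) (List.nodup_cons.2 ⟨hab.2, hnL⟩)
      fun s hs => h s (by simp at hs ⊢; tauto)
    have c2 := conv1_prodS hq (b :: L) hn' fun s hs => h s (List.mem_cons_of_mem _ hs)
    have e : prodS (a :: b :: L) = fun x => (b - a)⁻¹ * (prodS (a :: L) x - prodS (b :: L) x) :=
      funext fun x => by
        have ha : 0 < max x 0 + a := by linarith [le_max_right x 0, h1 a (List.mem_cons_self ..)]
        have hb : 0 < max x 0 + b := by
          linarith [le_max_right x 0, h1 b (List.mem_cons_of_mem _ (List.mem_cons_self ..))]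
        have hba : b - a ≠ 0 := sub_ne_zero.2 (Ne.symm hab.1)
        simp only [prodS, List.map_cons, List.prod_cons, hS]
        field_simp
        ring
    rw [e]
    exact (c1.sub c2 (integrable_prodS _ i1) (integrable_prodS _ i2)).const_mul _
  termination_by L => L.length

/-- The first `k` arguments at scale `j`. -/
noncomputable def argList (j : ℕ) : ℕ → List ℝ
  | 0 => []
  | k + 1 => (1 + (k : ℝ) / (j + 1)) :: argList j k

lemma mem_argList (j : ℕ) : ∀ (k : ℕ) (s : ℝ), s ∈ argList j k →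
    ∃ i < k, s = 1 + (i : ℝ) / (j + 1)
  | 0, s, h => by simp [argList] at h
  | k + 1, s, h => by
    rcases List.mem_cons.1 h with rfl | h
    · exact ⟨k, Nat.lt_succ_self k, rfl⟩
    · obtain ⟨i, hi, e⟩ := mem_argList j k s h
      exact ⟨i, Nat.lt_succ_of_lt hi, e⟩

lemma nodup_argList (j : ℕ) : ∀ k : ℕ, (argList j k).Nodup
  | 0 => List.nodup_nil
  | k + 1 => List.nodup_cons.2 ⟨fun h => by
      obtain ⟨i, hi, e⟩ := mem_argList j k _ h
      rw [add_right_inj, div_left_inj' (by positivity : (j : ℝ) + 1 ≠ 0), Nat.cast_inj] at e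
      omega, nodup_argList j k⟩

lemma abs_prodS_argList_sub (j : ℕ) : ∀ (k : ℕ) (x : ℝ),
    |prodS (argList j k) x - hS 1 x ^ k| ≤ (k : ℝ) ^ 2 / (j + 1)
  | 0, x => by simp [prodS, argList]
  | k + 1, x => by
    have ih := abs_prodS_argList_sub j k x
    set s := 1 + (k : ℝ) / (j + 1)
    have hs : 1 ≤ s := le_add_of_nonneg_right (by positivity)
    have hp := (prodS_facts (argList j k) fun t ht => by
      obtain ⟨i, -, rfl⟩ := mem_argList j k t ht
      exact le_add_of_nonneg_right (by positivity)).2 x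
    have hu := hS_mem le_rfl x
    have hd : |hS s x - hS 1 x| ≤ (k : ℝ) / (j + 1) := by
      have hx := le_max_right x 0
      simp only [hS]
      rw [inv_sub_inv (by linarith) (by linarith), abs_div, show max x 0 + 1 - (max x 0 + s) = 1 - s by ring,
        abs_of_nonpos (show (1 : ℝ) - s ≤ 0 by linarith),
        abs_of_pos (mul_pos (by linarith : (0 : ℝ) < max x 0 + s) (by linarith : (0 : ℝ) < max x 0 + 1))]
      exact (div_le_self (by linarith) (one_le_mul_of_one_le_of_one_le (by linarith) (by linarith))).trans_eq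
        (by simp [s])
    have e : prodS (argList j (k + 1)) x - hS 1 x ^ (k + 1) =
        (hS s x - hS 1 x) * prodS (argList j k) x + hS 1 x * (prodS (argList j k) x - hS 1 x ^ k) := by
      simp only [prodS, argList, List.map_cons, List.prod_cons, s]; ring
    rw [e]
    refine (abs_add_le _ _).trans ?_
    rw [abs_mul, abs_mul, abs_of_nonneg hp.1, abs_of_nonneg hu.1]
    have h1 : |hS s x - hS 1 x| * prodS (argList j k) x ≤ (k : ℝ) / (j + 1) :=
      (mul_le_of_le_one_right (abs_nonneg _) hp.2).trans hd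
    have h2 : hS 1 x * |prodS (argList j k) x - hS 1 x ^ k| ≤ (k : ℝ) ^ 2 / (j + 1) :=
      (mul_le_of_le_one_left (abs_nonneg _) hu.2).trans ih
    refine (add_le_add h1 h2).trans ?_
    rw [← add_div]
    refine div_le_div_of_nonneg_right ?_ (by positivity)
    push_cast; nlinarith

lemma conv1_pow (hq : ∀ q, Conv1 μ l (hS (sArg q))) (k : ℕ) : Conv1 μ l fun x => hS 1 x ^ k := by
  have hb : ∀ x, |hS 1 x ^ k| ≤ 1 := fun x => by
    rw [abs_of_nonneg (pow_nonneg (hS_mem le_rfl x).1 k)]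
    exact pow_le_one₀ (hS_mem le_rfl x).1 (hS_mem le_rfl x).2
  have hi : Integrable (fun x => hS 1 x ^ k) μ :=
    integrable_of_abs_le ((continuous_hS one_pos).pow k) hb
  refine conv1_of_approx hi fun ε hε => ?_
  obtain ⟨j, hj⟩ := exists_nat_ge ((k : ℝ) ^ 2 / ε)
  have hle : (k : ℝ) ^ 2 / (j + 1) ≤ ε := by
    rw [div_le_iff₀ (by positivity)]; rw [div_le_iff₀ hε] at hj; nlinarith
  have hs : ∀ s ∈ argList j k, ∃ q, sArg q = s := fun s h => by
    obtain ⟨i, -, rfl⟩ := mem_argList j k s h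
    exact ⟨Nat.pair i j, by simp [sArg, Nat.unpair_pair]⟩
  have h1 : ∀ s ∈ argList j k, 1 ≤ s := fun s h => by
    obtain ⟨q, rfl⟩ := hs s h; exact one_le_sArg q
  exact ⟨prodS (argList j k), integrable_prodS _ h1, conv1_prodS hq _ (nodup_argList j k) hs,
    Eventually.of_forall fun N => abs_avg_sub_le _ hε.le fun i => by
      rw [abs_sub_comm]; exact (abs_prodS_argList_sub j k _).trans hle,
    abs_integral_sub_le hi (integrable_prodS _ h1) (Eventually.of_forall fun x => by
      rw [abs_sub_comm]; exact (abs_prodS_argList_sub j k x).trans hle)⟩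

lemma conv1_poly (hq : ∀ q, Conv1 μ l (hS (sArg q))) (P : Polynomial ℝ) :
    Conv1 μ l (fun x => P.eval (hS 1 x)) ∧ Integrable (fun x => P.eval (hS 1 x)) μ := by
  induction P using Polynomial.induction_on' with
  | add p q hp hq' =>
    simp only [Polynomial.eval_add]
    exact ⟨hp.1.add hq'.1 hp.2 hq'.2, hp.2.add hq'.2⟩
  | monomial k a =>
    simp only [Polynomial.eval_monomial]
    exact ⟨(conv1_pow hq k).const_mul a, (integrable_of_abs_le (φ := fun x => hS 1 x ^ k) ((continuous_hS one_pos).pow k) (C := 1)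
      fun x => by
        rw [abs_of_nonneg (pow_nonneg (hS_mem le_rfl x).1 k)]
        exact pow_le_one₀ (hS_mem le_rfl x).1 (hS_mem le_rfl x).2).const_mul a⟩

/-- Weak convergence from the transforms and a bound on the first moments. -/
theorem weak_of_stieltjes {B : ℝ} (hμ : ∀ᵐ x ∂μ, x ∈ Set.Icc 0 B) (h0 : ∀ N i, 0 ≤ l N i)
    {C : ℝ} (h2 : ∀ᶠ N in atTop, avg (l N) (fun x => x) ≤ C)
    (hq : ∀ q, Conv1 μ l (hS (sArg q))) (φ : ℝ →ᵇ ℝ) : Conv1 μ l φ := by
  refine conv1_of_approx (φ.integrable μ) fun ε hε => ?_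
  set F := ‖φ‖
  have hF : ∀ x, |φ x| ≤ F := fun x => φ.norm_coe_le_norm x
  set R := |B| + 1 + F * (|C| + 1) / (ε / 2) with hR
  have hR1 : 1 ≤ R := by
    have : 0 ≤ F * (|C| + 1) / (ε / 2) := by positivity
    linarith [abs_nonneg B]
  set cut := fun x : ℝ => max 0 (min 1 (R + 1 - x))
  have hcut : ∀ x, cut x ∈ Set.Icc (0 : ℝ) 1 := fun x =>
    ⟨le_max_left _ _, max_le zero_le_one (min_le_left _ _)⟩
  have hc1 : ∀ x, x ≤ R → cut x = 1 := fun x hx => by
    simp only [cut]; rw [min_eq_left (by linarith), max_eq_right zero_le_one]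
  have hc0 : ∀ x, R + 1 ≤ x → cut x = 0 := fun x hx => by
    simp only [cut]; rw [max_eq_left ((min_le_right _ _).trans (by linarith))]
  set back := fun u : ℝ => (max u (1 / (R + 3)))⁻¹ - 1
  have hback : Continuous back :=
    ((continuous_id.max continuous_const).inv₀ fun u =>
      (lt_max_of_lt_right (show (0 : ℝ) < 1 / (R + 3) by positivity)).ne').sub continuous_const
  obtain ⟨P, hP⟩ := exists_polynomial_near_of_continuousOn 0 1 (fun u => φ (back u) * cut (back u))
    ((φ.continuous.comp hback).mul ((by fun_prop : Continuous cut).comp hback)).continuousOn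
    (ε / 2) (by linarith)
  have hkey : ∀ x, 0 ≤ x → |φ x - P.eval (hS 1 x)| ≤ ε / 2 + F * (x / R) * (if R < x then 1 else 0) := by
    intro x hx
    have hu : hS 1 x = (x + 1)⁻¹ := by simp [hS, max_eq_left hx]
    have hm := hP (hS 1 x) (hS_mem le_rfl x)
    have e : φ (back (hS 1 x)) * cut (back (hS 1 x)) = φ x * cut x := by
      by_cases h : x ≤ R + 2
      · have : back (hS 1 x) = x := by
          simp only [back, hu]
          rw [max_eq_left ?_, inv_inv, add_sub_cancel_right]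
          rw [one_div]; exact inv_anti₀ (by linarith) (by linarith)
        rw [this]
      · have : back (hS 1 x) = R + 2 := by
          simp only [back, hu]
          rw [max_eq_right ?_, one_div, inv_inv]; · ring
          rw [one_div]; exact inv_anti₀ (by linarith) (by linarith)
        rw [this, hc0 (R + 2) (by linarith), hc0 x (by linarith), mul_zero, mul_zero]
    rw [e, abs_sub_comm] at hm
    have hsplit : |φ x - φ x * cut x| ≤ F * (x / R) * (if R < x then 1 else 0) := by
      split_ifs with h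
      · rw [mul_one, ← mul_one_sub, abs_mul, abs_of_nonneg (sub_nonneg.2 (hcut x).2)]
        refine mul_le_mul (hF x) ?_ (sub_nonneg.2 (hcut x).2) (norm_nonneg _)
        refine (sub_le_self _ (hcut x).1).trans ?_
        rw [le_div_iff₀ (by linarith)]; linarith
      · simp [hc1 x (not_lt.1 h)]
    linarith [abs_sub_le (φ x) (φ x * cut x) (P.eval (hS 1 x))]
  obtain ⟨hPc, hPi⟩ := conv1_poly hq P
  refine ⟨fun x => P.eval (hS 1 x), hPi, hPc, h2.mono fun N hN => ?_,
    (abs_integral_sub_le (φ.integrable μ) hPi ((hμ.mono fun x hx => ?_))).trans (by linarith : ε / 2 ≤ ε)⟩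
  · rcases Nat.eq_zero_or_pos N with rfl | hN0
    · simp [avg, hε.le]
    have hN' : (0 : ℝ) < N := by exact_mod_cast hN0
    rw [← avg_sub, avg, abs_mul, abs_of_pos (inv_pos.2 hN')]
    refine (mul_le_mul_of_nonneg_left ((Finset.abs_sum_le_sum_abs _ _).trans
      (Finset.sum_le_sum fun i _ => (hkey (l N i) (h0 N i)).trans
        (add_le_add le_rfl (mul_le_of_le_one_right (by have := h0 N i; positivity) (by split_ifs <;> norm_num)))))
      (inv_nonneg.2 hN'.le)).trans ?_
    simp only [Finset.sum_add_distrib, ← Finset.mul_sum, ← Finset.sum_div, Finset.sum_const,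
      Finset.card_univ, Fintype.card_fin, nsmul_eq_mul]
    simp only [avg] at hN
    have h3 : F / R * C ≤ ε / 2 := by
      rw [div_mul_eq_mul_div, div_le_iff₀ (by linarith)]
      have h5 : ε / 2 * (F * (|C| + 1) / (ε / 2)) = F * (|C| + 1) := by field_simp
      have h6 : ε / 2 * (F * (|C| + 1) / (ε / 2)) ≤ ε / 2 * R :=
        mul_le_mul_of_nonneg_left (by rw [hR]; linarith [abs_nonneg B]) (by linarith)
      nlinarith [le_abs_self C, norm_nonneg φ]
    have h4 : F / R * ((N : ℝ)⁻¹ * ∑ i, l N i) ≤ F / R * C :=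
      mul_le_mul_of_nonneg_left hN (by positivity)
    rw [mul_add, show (N : ℝ)⁻¹ * ((N : ℝ) * ε / 2) = ε / 2 by field_simp]
    have e : (N : ℝ)⁻¹ * (F * ((∑ i, l N i) / R)) = F / R * ((N : ℝ)⁻¹ * ∑ i, l N i) := by ring
    linarith
  · refine (hkey x hx.1).trans_eq ?_
    have : ¬R < x := not_lt.2 (hx.2.trans ((le_abs_self B).trans (by
      have : 0 ≤ F * (|C| + 1) / (ε / 2) := by positivity
      linarith)))
    simp [this]

end Vale.Agent.P166N.Spectrum
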