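import Vale.Agent.P166N.Spectrum.MP
import Vale.Agent.P166N.Spectrum.Weak
import Vale.Agent.P166N.Spectrum.Edge
import Vale.Agent.P166.Universality

/-!
From Gaussian sample covariance couplings to deterministic spectra with Haar eigenvectors.
-/

namespace Vale.Agent.P166N.Spectrum

open MeasureTheory ProbabilityTheory Filter Matrix
open Vale.Agent.P166 (spin pressure Admissible RowInvariantLaw decr antitone_decr)
open Vale.Agent.P166W (gauss map_gauss_mulVec)
open scoped Topology BoundedContinuousFunction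

variable {N M : ℕ}

/-- The spins of a configuration. -/
def spins (σ : Fin N → Bool) : Fin N → ℝ := fun j => spin (σ j)

/-- The pressure of a coupling matrix. -/
noncomputable def jPress (β : ℝ) (J : Matrix (Fin N) (Fin N) ℝ) : ℝ :=
  (N : ℝ)⁻¹ * Real.log (((2 : ℝ) ^ N)⁻¹ * ∑ σ : Fin N → Bool,
    Real.exp (β / 2 * (spins σ ⬝ᵥ (J *ᵥ spins σ))))

lemma pressure_eq_jPress (β : ℝ) (l : Fin N → ℝ) (U : Fin N → Fin N → ℝ) :
    pressure N β l U = jPress β ((of U)ᵀ * diagonal l * of U) := rfl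

lemma spins_dot_self (σ : Fin N → Bool) : spins σ ⬝ᵥ spins σ = N := by
  have h : ∀ j, spins σ j * spins σ j = 1 := fun j => by
    cases hb : σ j <;> simp [spins, spin, hb]
  simp [dotProduct, h]

lemma continuous_jPress (β : ℝ) : Continuous (jPress (N := N) β) := by
  unfold jPress
  refine continuous_const.mul (Continuous.log ?_ fun J => ?_)
  · fun_prop
  · have : 0 < ∑ σ : Fin N → Bool, Real.exp (β / 2 * (spins σ ⬝ᵥ (J *ᵥ spins σ))) :=
      Finset.sum_pos (fun _ _ => Real.exp_pos _) Finset.univ_nonempty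
    positivity

lemma abs_jPress_le (β : ℝ) (J : Matrix (Fin N) (Fin N) ℝ) {C : ℝ} (hC : 0 ≤ C)
    (h : ∀ σ, |spins σ ⬝ᵥ (J *ᵥ spins σ)| ≤ C * N) : |jPress β J| ≤ |β| / 2 * C := by
  rcases Nat.eq_zero_or_pos N with rfl | hN
  · simp only [jPress, Nat.cast_zero, _root_.inv_zero, zero_mul, abs_zero]; positivity
  have hN' : (0 : ℝ) < N := by exact_mod_cast hN
  set S := ((2 : ℝ) ^ N)⁻¹ * ∑ σ : Fin N → Bool, Real.exp (β / 2 * (spins σ ⬝ᵥ (J *ᵥ spins σ)))
  set D := |β| / 2 * C * N
  have hb : ∀ σ, |β / 2 * (spins σ ⬝ᵥ (J *ᵥ spins σ))| ≤ D := fun σ => by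
    rw [abs_mul, abs_div, abs_two]
    exact (mul_le_mul_of_nonneg_left (h σ) (by positivity)).trans_eq (by simp only [D]; ring)
  have hcard : (Fintype.card (Fin N → Bool) : ℝ) = 2 ^ N := by simp
  have hlo : Real.exp (-D) ≤ S := by
    rw [le_inv_mul_iff₀ (by positivity)]
    refine le_trans (le_of_eq ?_) (Finset.sum_le_sum fun σ _ => Real.exp_le_exp.2 (abs_le.1 (hb σ)).1)
    simp
  have hhi : S ≤ Real.exp D := by
    rw [inv_mul_le_iff₀ (by positivity)]
    refine (Finset.sum_le_sum fun σ _ => Real.exp_le_exp.2 (abs_le.1 (hb σ)).2).trans (le_of_eq ?_)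
    simp
  have l1 := Real.log_le_log (Real.exp_pos _) hlo
  have l2 := Real.log_le_log ((Real.exp_pos _).trans_le hlo) hhi
  rw [Real.log_exp] at l1 l2
  rw [jPress, abs_mul, abs_of_pos (inv_pos.2 hN'), inv_mul_le_iff₀ hN', abs_le]
  constructor <;> linarith [show D = (N : ℝ) * (|β| / 2 * C) by simp only [D]; ring]

/-! ### The couplings -/

/-- The coupling matrix `a - x G ᵀ G / N`. -/
noncomputable def jMat (a x : ℝ) (G : Fin M → Fin N → ℝ) : Matrix (Fin N) (Fin N) ℝ :=
  a • 1 - x • covW G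

lemma continuous_jMat (a x : ℝ) : Continuous (jMat (M := M) (N := N) a x) := by
  unfold jMat covW
  fun_prop

lemma trace_covW (G : Fin M → Fin N → ℝ) :
    trN (covW G) = (∑ k, ∑ i, G k i ^ 2) / (N : ℝ) ^ 2 := by
  simp only [trN, trace, diag_apply, covW_apply, ← Finset.sum_div, div_div, ← pow_two]
  rw [Finset.sum_comm]

lemma trace_covW_nonneg (G : Fin M → Fin N → ℝ) : 0 ≤ trN (covW G) := by
  rw [trace_covW]; positivity

lemma conj_dot (A U : Matrix (Fin N) (Fin N) ℝ) (v : Fin N → ℝ) :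
    v ⬝ᵥ ((Uᵀ * A * U) *ᵥ v) = (U *ᵥ v) ⬝ᵥ (A *ᵥ (U *ᵥ v)) := by
  rw [← mulVec_mulVec, ← mulVec_mulVec, dotProduct_mulVec v Uᵀ, vecMul_transpose]

lemma abs_jPress_conj_le (β a x : ℝ) {U : Matrix (Fin N) (Fin N) ℝ} (hU : Uᵀ * U = 1)
    (G : Fin M → Fin N → ℝ) :
    |jPress β (Uᵀ * jMat a x G * U)| ≤ |β| / 2 * (|a| + |x| * (trN (covW G) * N)) := by
  refine abs_jPress_le β _ (add_nonneg (abs_nonneg _) (mul_nonneg (abs_nonneg _)
    (mul_nonneg (trace_covW_nonneg G) (Nat.cast_nonneg N)))) fun σ => ?_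
  set v := U *ᵥ spins σ
  have hv : v ⬝ᵥ v = N := by
    rw [← spins_dot_self σ]
    show (U *ᵥ spins σ) ⬝ᵥ (U *ᵥ spins σ) = _
    rw [dotProduct_mulVec, ← mulVec_transpose, mulVec_mulVec, hU, one_mulVec]
  have hw : |v ⬝ᵥ (covW G *ᵥ v)| ≤ trN (covW G) * N * N := by
    rw [dot_covW, abs_of_nonneg (by positivity), trace_covW]
    rcases Nat.eq_zero_or_pos N with rfl | hN
    · simp
    have hN' : (0 : ℝ) < N := by exact_mod_cast hN
    rw [div_le_iff₀ hN']
    refine (Finset.sum_le_sum (g := fun k => (N : ℝ) * ∑ i, G k i ^ 2) fun k _ => ?_).trans_eq ?_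
    · rw [dotProduct]
      refine (Finset.sum_mul_sq_le_sq_mul_sq _ _ _).trans (le_of_eq ?_)
      rw [mul_comm, show ∑ i, v i ^ 2 = (N : ℝ) by simpa [dotProduct, pow_two] using hv]
    · rw [← Finset.mul_sum]
      field_simp
  rw [conj_dot, jMat, sub_mulVec, smul_mulVec, smul_mulVec, one_mulVec, dotProduct_sub,
    dotProduct_smul, dotProduct_smul, smul_eq_mul, smul_eq_mul, hv]
  refine (abs_sub _ _).trans ?_
  rw [abs_mul, abs_mul, Nat.abs_cast, add_mul]
  exact add_le_add le_rfl ((mul_le_mul_of_nonneg_left hw (abs_nonneg x)).trans_eq (by ring))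

lemma conj_jMat (a x : ℝ) {U : Matrix (Fin N) (Fin N) ℝ} (hU : Uᵀ * U = 1) (G : Fin M → Fin N → ℝ) :
    Uᵀ * jMat a x G * U = jMat a x fun k => Uᵀ *ᵥ G k := by
  have e : (of fun k => Uᵀ *ᵥ G k) = of G * U := by
    ext k i
    simp [mulVec, dotProduct, Matrix.mul_apply, mul_comm]
  simp only [jMat, covW, e, transpose_mul]
  rw [Matrix.mul_sub, Matrix.sub_mul, Matrix.mul_smul, Matrix.smul_mul, Matrix.mul_one, hU,
    Matrix.mul_smul, Matrix.mul_smul, Matrix.smul_mul, Matrix.smul_mul]
  simp only [Matrix.mul_assoc]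

lemma measurePreserving_conj {U : Matrix (Fin N) (Fin N) ℝ} (hU : Uᵀ * U = 1) :
    MeasurePreserving (fun (G : Fin M → Fin N → ℝ) k => Uᵀ *ᵥ G k) (patLaw N M) (patLaw N M) :=
  measurePreserving_pi (fun _ : Fin M => gauss (Fin N)) (fun _ => gauss (Fin N)) fun _ =>
    ⟨Continuous.measurable (by fun_prop),
      map_gauss_mulVec Uᵀ (by rw [transpose_transpose]; exact mul_eq_one_comm.1 hU)⟩

lemma integral_sq_gauss (i : Fin N) :
    Integrable (fun g : Fin N → ℝ => g i ^ 2) (gauss (Fin N)) ∧ ∫ g, g i ^ 2 ∂gauss (Fin N) = 1 := by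
  have hmp := measurePreserving_eval (fun _ : Fin N => gaussianReal 0 1) i
  have h1 : Integrable (fun z : ℝ => z ^ 2) (gaussianReal 0 1) := by
    simpa using (memLp_id_gaussianReal' (μ := 0) (v := 1) 2 (by simp)).integrable_sq
  refine ⟨hmp.integrable_comp_of_integrable h1, ?_⟩
  have h2 : ∫ z : ℝ, z ^ 2 ∂gaussianReal 0 1 = 1 := by
    have := variance_fun_id_gaussianReal (μ := 0) (v := 1)
    rw [variance_of_integral_eq_zero (by fun_prop) (by simp)] at this
    simpa using this
  rw [gauss, integral_comp_eval (μ := fun _ : Fin N => gaussianReal 0 1) (f := fun z : ℝ => z ^ 2)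
    (by fun_prop), h2]

lemma integral_trN_covW :
    Integrable (fun G => trN (covW G)) (patLaw N M) ∧
      ∫ G, trN (covW G) ∂patLaw N M = (M : ℝ) / N := by
  have hmp : ∀ k : Fin M, MeasurePreserving (fun G : Fin M → Fin N → ℝ => G k) (patLaw N M) (gauss (Fin N)) :=
    fun k => measurePreserving_eval (fun _ => gauss (Fin N)) k
  have hi : ∀ k i, Integrable (fun G : Fin M → Fin N → ℝ => G k i ^ 2) (patLaw N M) := fun k i =>
    (hmp k).integrable_comp_of_integrable (integral_sq_gauss i).1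
  have he : ∀ k i, ∫ G : Fin M → Fin N → ℝ, G k i ^ 2 ∂patLaw N M = 1 := fun k i => by
    rw [← (integral_sq_gauss (N := N) i).2, patLaw]
    exact integral_comp_eval (μ := fun _ : Fin M => gauss (Fin N))
      (f := fun g : Fin N → ℝ => g i ^ 2) (integral_sq_gauss i).1.aestronglyMeasurable
  simp only [trace_covW]
  refine ⟨(integrable_finsetSum _ fun k _ => integrable_finsetSum _ fun i _ => hi k i).div_const _, ?_⟩
  rw [integral_div, integral_finsetSum _ fun k _ => integrable_finsetSum _ fun i _ => hi k i]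
  simp only [integral_finsetSum _ fun i _ => hi _ i, he, Finset.sum_const, Finset.card_univ,
    Fintype.card_fin, nsmul_eq_mul, mul_one]
  rcases Nat.eq_zero_or_pos N with rfl | hN
  · simp
  · field_simp

/-- Probability laws on the orthogonal group invariant under left multiplication, as Haar measure
is. -/
structure OrthInvLaw (N : ℕ) (ν : Measure (Fin N → Fin N → ℝ)) : Prop where
  prob : IsProbabilityMeasure ν
  orth : ∀ᵐ U ∂ν, (of U)ᵀ * of U = 1
  invariant : ∀ O : Matrix (Fin N) (Fin N) ℝ, Oᵀ * O = 1 →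
    ν.map (fun U => of.symm (O * of U)) = ν

variable {ν : Measure (Fin N → Fin N → ℝ)}

lemma OrthInvLaw.rowInvariant (h : OrthInvLaw N ν) : RowInvariantLaw N ν where
  prob := h.prob
  orth := h.orth
  invariant π := by
    set O : Matrix (Fin N) (Fin N) ℝ := of fun i j => if π i = j then 1 else 0 with hO
    have e : (fun (U : Fin N → Fin N → ℝ) i => U (π i)) = fun U => of.symm (O * of U) := by
      funext U i j
      simp [hO, Matrix.mul_apply]
    rw [e]
    refine h.invariant O ?_
    ext i j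
    simp only [Matrix.mul_apply, transpose_apply, hO, Matrix.of_apply, Matrix.one_apply]
    rw [Finset.sum_eq_single (π.symm i)]
    · by_cases hij : i = j <;> simp [hij]
    · intro k _ hk
      have : π k ≠ i := fun hk' => hk (by rw [← hk', Equiv.symm_apply_apply])
      simp [this]
    · simp

/-- The distance of the conjugated pressure from `L`, averaged over eigenvectors. -/
noncomputable def haarDev (β a x L : ℝ) (ν : Measure (Fin N → Fin N → ℝ)) (G : Fin M → Fin N → ℝ) : ℝ :=
  ∫ U, |jPress β ((of U)ᵀ * jMat a x G * of U) - L| ∂ν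

lemma continuous_haarJ (β a x : ℝ) :
    Continuous fun p : (Fin M → Fin N → ℝ) × (Fin N → Fin N → ℝ) =>
      jPress β ((of p.2)ᵀ * jMat a x p.1 * of p.2) := by
  refine (continuous_jPress β).comp ?_
  have h1 : Continuous fun p : (Fin M → Fin N → ℝ) × (Fin N → Fin N → ℝ) =>
      (of p.2 : Matrix (Fin N) (Fin N) ℝ) := continuous_snd
  exact (h1.matrix_transpose.matrix_mul ((continuous_jMat a x).comp continuous_fst)).matrix_mul h1

lemma integral_haarDev (β a x L : ℝ) (h : OrthInvLaw N ν) :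
    Integrable (fun G => haarDev β a x L ν G) (patLaw N M) ∧
      ∫ G, haarDev β a x L ν G ∂patLaw N M = ∫ G, |jPress β (jMat a x G) - L| ∂patLaw N M := by
  have := h.prob
  have hF : Integrable (fun p : (Fin M → Fin N → ℝ) × (Fin N → Fin N → ℝ) =>
      |jPress β ((of p.2)ᵀ * jMat a x p.1 * of p.2) - L|) ((patLaw N M).prod ν) := by
    have hdom : Integrable (fun G : Fin M → Fin N → ℝ =>
        |β| / 2 * (|a| + |x| * (trN (covW G) * N)) + |L|) (patLaw N M) :=
      (Integrable.add (integrable_const _) ((integral_trN_covW.1.mul_const _).const_mul _) |>.const_mul _).add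
        (integrable_const _)
    refine (hdom.comp_fst ν).mono'
      ((continuous_haarJ β a x).sub continuous_const).abs.aestronglyMeasurable
      ((Measure.quasiMeasurePreserving_snd.ae h.orth).mono fun p hp => ?_)
    rw [Real.norm_eq_abs, abs_abs]
    exact (abs_sub _ _).trans (add_le_add (abs_jPress_conj_le β a x hp p.1) le_rfl)
  refine ⟨hF.integral_prod_left, ?_⟩
  show ∫ G, ∫ U, _ ∂ν ∂patLaw N M = _
  rw [integral_integral_swap hF]
  have e : ∀ᵐ U ∂ν, ∫ G, |jPress β ((of U)ᵀ * jMat a x G * of U) - L| ∂patLaw N M =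
      ∫ G, |jPress β (jMat a x G) - L| ∂patLaw N M := h.orth.mono fun U hU => by
    simp only [conj_jMat a x hU]
    have hmp := measurePreserving_conj (M := M) hU
    have hm : AEStronglyMeasurable (fun G : Fin M → Fin N → ℝ => |jPress β (jMat a x G) - L|)
        (patLaw N M) :=
      (((continuous_jPress β).comp (continuous_jMat a x)).sub continuous_const).abs.aestronglyMeasurable
    conv_rhs => rw [← hmp.map_eq]
    rw [integral_map hmp.measurable.aemeasurable (by rwa [hmp.map_eq])]
  rw [integral_congr_ae e]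
  simp

/-- The spectrum of a sample covariance matrix. -/
lemma exists_spectrum (β a x L : ℝ) (h : OrthInvLaw N ν) (G : Fin M → Fin N → ℝ) :
    ∃ l : Fin N → ℝ, (∀ i, 0 ≤ l i) ∧ avg l (fun y => y) = trN (covW G) ∧
      (∀ s, 0 < s → avg l (hS s) = trN (res s G)) ∧
      (∀ b, G ∉ lowSet N M b → ∀ i, b ≤ l i) ∧
      ∫ U, |pressure N β (fun i => a - x * l i) U - L| ∂ν = haarDev β a x L ν G := by
  have hH : (covW G).IsHermitian := by
    rw [IsHermitian, conjTranspose_eq_transpose_of_trivial, transpose_covW]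
  set l := hH.eigenvalues
  set O : Matrix (Fin N) (Fin N) ℝ := (hH.eigenvectorUnitary : Matrix (Fin N) (Fin N) ℝ)
  have hO : Oᵀ * O = 1 := by
    have := (Unitary.mem_iff.1 hH.eigenvectorUnitary.2).1
    rwa [star_eq_conjTranspose, conjTranspose_eq_transpose_of_trivial] at this
  have hO' : O * Oᵀ = 1 := mul_eq_one_comm.1 hO
  have hAO : covW G = O * diagonal l * Oᵀ := by
    have h := hH.spectral_theorem
    rw [Unitary.conjStarAlgAut_apply, star_eq_conjTranspose, conjTranspose_eq_transpose_of_trivial] at h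
    simpa [Function.comp_def] using h
  have hcol : ∀ i, (O *ᵥ Pi.single i 1) ⬝ᵥ (O *ᵥ Pi.single i 1) = 1 ∧
      (O *ᵥ Pi.single i 1) ⬝ᵥ (covW G *ᵥ (O *ᵥ Pi.single i 1)) = l i := fun i => by
    refine ⟨?_, ?_⟩
    · rw [dotProduct_mulVec, ← mulVec_transpose, mulVec_mulVec, hO, one_mulVec]
      simp
    · rw [hAO, ← mulVec_mulVec, mulVec_mulVec _ Oᵀ, hO, one_mulVec, ← mulVec_mulVec,
        dotProduct_mulVec, ← mulVec_transpose, mulVec_mulVec _ Oᵀ, hO, one_mulVec]
      simp
  have hl0 : ∀ i, 0 ≤ l i := fun i => by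
    rw [← (hcol i).2, dot_covW]
    positivity
  have htr : ∀ f : Fin N → ℝ, (O * diagonal f * Oᵀ).trace = ∑ i, f i := fun f => by
    rw [trace_mul_comm, ← Matrix.mul_assoc, hO, Matrix.one_mul, trace_diagonal]
  refine ⟨l, hl0, ?_, fun s hs => ?_, fun b hb i => ?_, ?_⟩
  · rw [avg, trN, hAO, htr, div_eq_inv_mul]
  · have hres : res s G = O * diagonal (fun i => (l i + s)⁻¹) * Oᵀ := by
      refine Matrix.inv_eq_right_inv ?_
      rw [hAO]
      have e : (s • (1 : Matrix (Fin N) (Fin N) ℝ)) = O * diagonal (fun _ => s) * Oᵀ := by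
        rw [← smul_one_eq_diagonal, Matrix.mul_smul, Matrix.mul_one, Matrix.smul_mul, hO']
      rw [e, ← Matrix.add_mul, ← Matrix.mul_add, diagonal_add]
      simp only [Matrix.mul_assoc]
      rw [← Matrix.mul_assoc Oᵀ O, hO, Matrix.one_mul, ← Matrix.mul_assoc (diagonal _) (diagonal _),
        diagonal_mul_diagonal]
      have : (fun i => (l i + s) * (l i + s)⁻¹) = fun _ : Fin N => (1 : ℝ) :=
        funext fun i => mul_inv_cancel₀ (add_pos_of_nonneg_of_pos (hl0 i) hs).ne'
      rw [this, diagonal_one, Matrix.one_mul, hO']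
    rw [avg, trN, hres, htr, div_eq_inv_mul]
    simp only [hS, max_eq_left (hl0 _)]
  · by_contra h
    exact hb ⟨_, (hcol i).1, (hcol i).2.symm ▸ not_le.1 h⟩
  · have e : ∀ U : Fin N → Fin N → ℝ, jPress β ((of U)ᵀ * jMat a x G * of U) =
        pressure N β (fun i => a - x * l i) (of.symm (Oᵀ * of U)) := fun U => by
      rw [pressure_eq_jPress, Equiv.apply_symm_apply]
      congr 1
      have hJ : jMat a x G = O * diagonal (fun i => a - x * l i) * Oᵀ := by
        have d : diagonal (fun i => a - x * l i) = a • (1 : Matrix (Fin N) (Fin N) ℝ) - x • diagonal l := by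
          rw [← diagonal_smul, smul_one_eq_diagonal, diagonal_sub]
          rfl
        rw [jMat, d, hAO, Matrix.mul_sub, Matrix.sub_mul, Matrix.mul_smul, Matrix.mul_one,
          Matrix.smul_mul, hO', Matrix.mul_smul, Matrix.smul_mul]
      rw [hJ, transpose_mul, transpose_transpose]
      simp only [Matrix.mul_assoc]
    simp only [haarDev, e]
    have hm : Measurable fun U : Fin N → Fin N → ℝ => of.symm (Oᵀ * of U) :=
      Continuous.measurable (show Continuous fun U : Fin N → Fin N → ℝ => of.symm (Oᵀ * of U) from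
        continuous_const.matrix_mul continuous_id)
    have hf : Continuous fun U => |pressure N β (fun i => a - x * l i) U - L| :=
      ((Vale.Agent.P166.continuous_pressure β _).sub continuous_const).abs
    conv_lhs => rw [← h.invariant Oᵀ (by rw [transpose_transpose]; exact hO')]
    rw [integral_map hm.aemeasurable hf.aestronglyMeasurable]

/-! ### Selection -/

/-- The defect of the transforms. -/
noncomputable def stDev (α : ℝ) (G : Fin M → Fin N → ℝ) : ℝ :=
  ∑' q : ℕ, (1 / 2 : ℝ) ^ q * |trN (res (sArg q) G) - mpR α (sArg q)|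

variable {α : ℝ}

lemma mpR_le_one (hα : 0 < α) {s : ℝ} (hs : 1 ≤ s) : mpR α s ∈ Set.Icc 0 1 := by
  refine ⟨(mpF_mpR hα (by linarith)).1, ?_⟩
  have := isProbabilityMeasure_mp hα
  rw [← integral_mp_inv hα (show 0 < s by linarith)]
  refine (integral_mono_of_nonneg (Eventually.of_forall fun x => (hS_mem hs x).1) (integrable_const 1)
    (Eventually.of_forall fun x => (hS_mem hs x).2)).trans_eq (by simp)

lemma abs_stTerm_le (hα : 0 < α) (q : ℕ) (G : Fin M → Fin N → ℝ) :
    |(1 / 2 : ℝ) ^ q * (|trN (res (sArg q) G) - mpR α (sArg q)|)| ≤ (1 / 2) ^ q := by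
  have h1 := one_le_sArg q
  obtain ⟨a0, a1⟩ := trN_res_mem (show 0 < sArg q by linarith) G
  obtain ⟨b0, b1⟩ := mpR_le_one hα h1
  have : trN (res (sArg q) G) ≤ 1 := a1.trans ((div_le_one (by linarith)).2 h1)
  rw [abs_mul, abs_of_pos (by positivity : (0 : ℝ) < (1 / 2) ^ q), abs_abs]
  exact mul_le_of_le_one_right (by positivity) (abs_sub_le_iff.2 ⟨by linarith, by linarith⟩)

lemma tendsto_stDev (hα : 0 < α) :
    (∀ N, Integrable (fun G => stDev α G) (patLaw N ⌊α * N⌋₊)) ∧
    Tendsto (fun N => ∫ G, stDev α G ∂patLaw N ⌊α * N⌋₊) atTop (𝓝 0) := by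
  have hm : ∀ (N : ℕ) (q : ℕ), Measurable fun G : Fin ⌊α * (N : ℝ)⌋₊ → Fin N → ℝ =>
      (1 / 2 : ℝ) ^ q * |trN (res (sArg q) G) - mpR α (sArg q)| := fun N q => by
    have := (measurable_trN_res (M := ⌊α * (N : ℝ)⌋₊) (N := N) (sArg q)).sub_const (mpR α (sArg q))
    exact (continuous_abs.measurable.comp this).const_mul _
  have hg : Summable fun q : ℕ => (1 / 2 : ℝ) ^ q := summable_geometric_two
  have hi : ∀ (N : ℕ) (q : ℕ), Integrable (fun G : Fin ⌊α * (N : ℝ)⌋₊ → Fin N → ℝ =>
      (1 / 2 : ℝ) ^ q * |trN (res (sArg q) G) - mpR α (sArg q)|) (patLaw N ⌊α * N⌋₊) := fun N q =>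
    Integrable.of_bound (hm N q).aestronglyMeasurable ((1 / 2) ^ q)
      (Eventually.of_forall fun G => abs_stTerm_le hα q G)
  have hsum : ∀ N : ℕ, Summable fun q : ℕ => ∫ G : Fin ⌊α * (N : ℝ)⌋₊ → Fin N → ℝ,
      ‖(1 / 2 : ℝ) ^ q * |trN (res (sArg q) G) - mpR α (sArg q)|‖ ∂patLaw N ⌊α * N⌋₊ := fun N =>
    hg.of_nonneg_of_le (fun q => integral_nonneg fun G => norm_nonneg _) fun q =>
      (integral_mono (hi N q).norm (integrable_const _) fun G => abs_stTerm_le hα q G).trans_eq
        (by simp)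
  refine ⟨fun N => (integrable_const (2 : ℝ)).mono'
    (Measurable.tsum (fun q => hm N q)).aestronglyMeasurable
    (Eventually.of_forall fun G => ?_), ?_⟩
  · refine (tsum_of_norm_bounded hg.hasSum fun q => abs_stTerm_le hα q G).trans_eq ?_
    exact tsum_geometric_two
  have e : ∀ N : ℕ, ∫ G, stDev α G ∂patLaw N ⌊α * N⌋₊ = ∑' q : ℕ, ∫ G : Fin ⌊α * (N : ℝ)⌋₊ → Fin N → ℝ,
      (1 / 2 : ℝ) ^ q * |trN (res (sArg q) G) - mpR α (sArg q)| ∂patLaw N ⌊α * N⌋₊ := fun N =>
    (integral_tsum_of_summable_integral_norm (hi N) (hsum N)).symm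
  simp only [e]
  rw [← (tsum_zero : ∑' _ : ℕ, (0 : ℝ) = 0)]
  refine tendsto_tsum_of_dominated_convergence hg (fun q => ?_) (Eventually.of_forall fun N q => ?_)
  · set s := sArg q
    have hs : 0 < s := zero_lt_one.trans_le (one_le_sArg q)
    obtain ⟨hr0, hrF⟩ := mpF_mpR hα hs
    have hfl : Tendsto (fun N : ℕ => (⌊α * (N : ℝ)⌋₊ : ℝ) / N) atTop (𝓝 α) :=
      (tendsto_nat_floor_mul_div_atTop hα.le).comp tendsto_natCast_atTop_atTop
    have hb : Tendsto (fun N : ℕ => (1 / 2 : ℝ) ^ q * ((|(⌊α * (N : ℝ)⌋₊ : ℝ) / N - α| +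
        (⌊α * (N : ℝ)⌋₊ : ℝ) / N * ((qv / s ^ 2 + 1 / s + 1) / Real.sqrt N)) / s)) atTop (𝓝 0) := by
      have hsq : Tendsto (fun N : ℕ => (qv / s ^ 2 + 1 / s + 1) / Real.sqrt N) atTop (𝓝 0) :=
        tendsto_const_nhds.div_atTop (Real.tendsto_sqrt_atTop.comp tendsto_natCast_atTop_atTop)
      simpa using ((((hfl.sub_const α).abs).add (hfl.mul hsq)).div_const s).const_mul ((1 / 2 : ℝ) ^ q)
    refine squeeze_zero' (Eventually.of_forall fun N => integral_nonneg fun G => by positivity) ?_ hb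
    filter_upwards [eventually_gt_atTop 0] with N hN
    rw [integral_const_mul]
    refine mul_le_mul_of_nonneg_left ?_ (by positivity)
    rw [le_div_iff₀ hs, mul_comm, ← integral_const_mul]
    refine le_trans (integral_mono_of_nonneg (Eventually.of_forall fun G => by positivity) ?_
      (Eventually.of_forall fun G => ?_)) (integral_abs_mpF_le hα.le hs hN)
    · refine Integrable.of_bound ?_ (1 + s * (1 / s) + α) (Eventually.of_forall fun G => ?_)
      · exact ((by unfold mpF; fun_prop : Measurable (mpF α s)).comp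
          (measurable_trN_res s)).norm.aestronglyMeasurable
      · obtain ⟨t0, t1⟩ := trN_res_mem hs G
        rw [Real.norm_eq_abs, abs_abs, mpF, abs_le]
        have h1 : 0 ≤ trN (res s G) / (1 + trN (res s G)) := by positivity
        have h2 : trN (res s G) / (1 + trN (res s G)) ≤ 1 := by
          rw [div_le_one (by linarith)]; linarith
        have h3 := mul_le_mul_of_nonneg_left t1 hs.le
        constructor <;> nlinarith [mul_le_mul_of_nonneg_left h2 hα.le, mul_nonneg hα.le h1,
          mul_nonneg hs.le t0]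
    · have := abs_sub_le_mpF (α := α) hα.le hs (trN_res_mem hs G).1 hr0
      rwa [hrF, sub_zero] at this
  · exact norm_integral_le_of_norm_le_const (μ := patLaw N ⌊α * N⌋₊)
      (Eventually.of_forall fun G => abs_stTerm_le hα q G) |>.trans_eq (by simp)

/-- Eigenvalue moves by at most `η` move the pressure by at most `β η`. -/
lemma abs_pressure_sub_le_unif {β η : ℝ} (hβ : 0 ≤ β) (hη : 0 ≤ η) {l l' : Fin N → ℝ}
    (h : ∀ i, |l i - l' i| ≤ η) {U : Fin N → Fin N → ℝ} (hU : (of U)ᵀ * of U = 1) :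
    |pressure N β l U - pressure N β l' U| ≤ β * η := by
  refine (Vale.Agent.P166.abs_pressure_sub_le hβ l l' U).trans ?_
  rcases Nat.eq_zero_or_pos N with rfl | hN
  · simpa using mul_nonneg hβ hη
  refine (Finset.sum_le_sum fun i _ => mul_le_mul_of_nonneg_right (h i)
    (add_nonneg (Vale.Agent.P166.weight_nonneg hβ l i U) (Vale.Agent.P166.weight_nonneg hβ l' i U))).trans_eq ?_
  rw [← Finset.mul_sum, Finset.sum_add_distrib, Vale.Agent.P166.sum_weight β l hU hN,
    Vale.Agent.P166.sum_weight β l' hU hN]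
  ring

/-- The defect at the lower edge. -/
noncomputable def edgeDev (α : ℝ) (G : Fin M → Fin N → ℝ) : ℝ :=
  ∑' q : ℕ, (1 / 2 : ℝ) ^ q * (lowSet N M (edgeLo α - 1 / ((q : ℝ) + 1))).indicator (fun _ => 1) G

lemma edgeTerm_mem (q : ℕ) (G : Fin M → Fin N → ℝ) :
    |(1 / 2 : ℝ) ^ q * (lowSet N M (edgeLo α - 1 / ((q : ℝ) + 1))).indicator (fun _ => 1) G| ≤ (1 / 2) ^ q := by
  rw [abs_mul, abs_of_pos (by positivity : (0 : ℝ) < (1 / 2) ^ q)]
  refine mul_le_of_le_one_right (by positivity) ?_
  by_cases h : G ∈ lowSet N M (edgeLo α - 1 / ((q : ℝ) + 1))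
  · rw [Set.indicator_of_mem h, abs_one]
  · rw [Set.indicator_of_notMem h, abs_zero]; exact zero_le_one

lemma tendsto_edgeDev (hα : 0 < α) :
    (∀ N, Integrable (fun G => edgeDev α G) (patLaw N ⌊α * N⌋₊)) ∧
    Tendsto (fun N => ∫ G, edgeDev α G ∂patLaw N ⌊α * N⌋₊) atTop (𝓝 0) := by
  set T : (N : ℕ) → ℕ → (Fin ⌊α * (N : ℝ)⌋₊ → Fin N → ℝ) → ℝ := fun N q G =>
    (1 / 2 : ℝ) ^ q * (lowSet N ⌊α * N⌋₊ (edgeLo α - 1 / ((q : ℝ) + 1))).indicator (fun _ => 1) G
  have hm : ∀ N q, Measurable (T N q) := fun N q =>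
    (measurable_const.indicator (measurableSet_lowSet _)).const_mul _
  have hg : Summable fun q : ℕ => (1 / 2 : ℝ) ^ q := summable_geometric_two
  have hi : ∀ N q, Integrable (T N q) (patLaw N ⌊α * N⌋₊) := fun N q =>
    Integrable.of_bound (hm N q).aestronglyMeasurable ((1 / 2) ^ q)
      (Eventually.of_forall fun G => edgeTerm_mem q G)
  have hb : ∀ N q, ‖∫ G, T N q G ∂patLaw N ⌊α * N⌋₊‖ ≤ (1 / 2) ^ q := fun N q =>
    (norm_integral_le_of_norm_le_const (μ := patLaw N ⌊α * N⌋₊)
      (Eventually.of_forall fun G => edgeTerm_mem q G)).trans_eq (by simp)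
  have hsum : ∀ N, Summable fun q => ∫ G, ‖T N q G‖ ∂patLaw N ⌊α * N⌋₊ := fun N =>
    hg.of_nonneg_of_le (fun q => integral_nonneg fun G => norm_nonneg _) fun q =>
      (integral_mono (hi N q).norm (integrable_const _) fun G => edgeTerm_mem q G).trans_eq (by simp)
  refine ⟨fun N => (integrable_const (2 : ℝ)).mono'
    (Measurable.tsum (fun q => hm N q)).aestronglyMeasurable (Eventually.of_forall fun G => ?_), ?_⟩
  · exact (tsum_of_norm_bounded hg.hasSum fun q => edgeTerm_mem q G).trans_eq tsum_geometric_two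
  have e : ∀ N : ℕ, ∫ G, edgeDev α G ∂patLaw N ⌊α * N⌋₊ = ∑' q, ∫ G, T N q G ∂patLaw N ⌊α * N⌋₊ :=
    fun N => (integral_tsum_of_summable_integral_norm (hi N) (hsum N)).symm
  simp only [e]
  rw [← (tsum_zero : ∑' _ : ℕ, (0 : ℝ) = 0)]
  refine tendsto_tsum_of_dominated_convergence hg (fun q => ?_) (Eventually.of_forall hb)
  have h := edge_prob hα (b := edgeLo α - 1 / ((q : ℝ) + 1)) (sub_lt_self _ (by positivity))
  simp only [T, integral_const_mul, integral_indicator_const _ (measurableSet_lowSet _), smul_eq_mul, mul_one]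
  simpa using h.const_mul ((1 / 2 : ℝ) ^ q)

/-- Deterministic arrays above the lower edge carrying the limit. -/
lemma exists_array (hα : 0 < α) {β : ℝ} (hβ : 0 ≤ β) (a x L : ℝ)
    (hlim : Tendsto (fun N => ∫ G, |jPress β (jMat a x G) - L| ∂patLaw N ⌊α * N⌋₊) atTop (𝓝 0))
    {ν : (N : ℕ) → Measure (Fin N → Fin N → ℝ)} (hν : ∀ N, OrthInvLaw N (ν N)) :
    ∃ l : (N : ℕ) → Fin N → ℝ, (∀ N i, edgeLo α ≤ l N i) ∧
      (∀ q, Conv1 (mp α) l (hS (sArg q))) ∧
      (∀ ε, 0 < ε → ∀ᶠ N in atTop, avg (l N) (fun y => y) ≤ α + ε) ∧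
      Tendsto (fun N => ∫ U, |pressure N β (fun i => a - x * l N i) U - L| ∂ν N) atTop (𝓝 0) := by
  obtain ⟨hsi, hst⟩ := tendsto_stDev hα
  obtain ⟨hei, het⟩ := tendsto_edgeDev hα
  set Φ : ∀ N : ℕ, (Fin ⌊α * (N : ℝ)⌋₊ → Fin N → ℝ) → ℝ := fun N G =>
    stDev α G + edgeDev α G + haarDev β a x L (ν N) G
  have hΦi : ∀ N, Integrable (Φ N) (patLaw N ⌊α * N⌋₊) := fun N =>
    ((hsi N).add (hei N)).add (integral_haarDev β a x L (hν N)).1
  have hΦlim : Tendsto (fun N => ∫ G, Φ N G ∂patLaw N ⌊α * N⌋₊) atTop (𝓝 0) := by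
    have := (hst.add het).add hlim
    rw [add_zero, add_zero] at this
    refine this.congr fun N => ?_
    show _ = ∫ G, (stDev α G + edgeDev α G + haarDev β a x L (ν N) G) ∂patLaw N ⌊α * N⌋₊
    rw [integral_add ((hsi N).fun_add (hei N)) (integral_haarDev β a x L (hν N)).1,
      integral_add (hsi N) (hei N), (integral_haarDev β a x L (hν N)).2]
  have hst0 : ∀ (N : ℕ) (G : Fin ⌊α * (N : ℝ)⌋₊ → Fin N → ℝ), 0 ≤ stDev α G ∧ 0 ≤ edgeDev α G :=
    fun N G => ⟨tsum_nonneg fun q => by positivity, tsum_nonneg fun q =>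
      mul_nonneg (by positivity) (Set.indicator_nonneg (fun _ _ => zero_le_one) _)⟩
  have hΦ0 : ∀ N G, 0 ≤ Φ N G := fun N G =>
    add_nonneg (add_nonneg (hst0 N G).1 (hst0 N G).2) (integral_nonneg fun U => abs_nonneg _)
  set δ : ℕ → ℝ := fun N => Real.sqrt ((∫ G, Φ N G ∂patLaw N ⌊α * N⌋₊) + 1 / ((N : ℝ) + 1))
  have hδ0 : ∀ N, 0 < δ N := fun N => Real.sqrt_pos.2
    (add_pos_of_nonneg_of_pos (integral_nonneg (hΦ0 N)) (by positivity))
  have hδ : Tendsto δ atTop (𝓝 0) := by
    have := (hΦlim.add tendsto_one_div_add_atTop_nhds_zero_nat).sqrt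
    simpa [δ] using this
  have hex : ∀ N : ℕ, ∃ G : Fin ⌊α * (N : ℝ)⌋₊ → Fin N → ℝ, Φ N G / δ N + trN (covW G) ≤ δ N + α := by
    intro N
    obtain ⟨G, hG⟩ := exists_le_integral (((hΦi N).div_const (δ N)).add (integral_trN_covW.1))
    refine ⟨G, hG.trans ?_⟩
    simp only [Pi.add_apply]
    rw [integral_add ((hΦi N).div_const _) integral_trN_covW.1, integral_trN_covW.2, integral_div]
    refine add_le_add ?_ ?_
    · rw [div_le_iff₀ (hδ0 N), Real.mul_self_sqrt (add_nonneg (integral_nonneg (hΦ0 N)) (by positivity))]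
      exact le_add_of_nonneg_right (by positivity)
    · rcases Nat.eq_zero_or_pos N with rfl | hN
      · simp [hα.le]
      · rw [div_le_iff₀ (by exact_mod_cast hN)]
        exact Nat.floor_le (by positivity)
  choose G hG using hex
  choose l hl0 hl1 hls hlb hlp using fun N => exists_spectrum β a x L (hν N) (G N)
  have hsmall : ∀ N, Φ N (G N) ≤ δ N * (δ N + α) := fun N => by
    have := hG N
    have h2 := trace_covW_nonneg (G N)
    rw [mul_comm, ← div_le_iff₀ (hδ0 N)]
    linarith
  have hto : Tendsto (fun N : ℕ => δ N * (δ N + α)) atTop (𝓝 0) := by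
    simpa using hδ.mul (hδ.add_const α)
  set lo := edgeLo α
  -- the eigenvalues are asymptotically above the edge
  set η : ℕ → ℝ := fun N => ⨆ i, max (lo - l N i) 0
  have hηi : ∀ N i, max (lo - l N i) 0 ≤ η N := fun N i =>
    le_ciSup (f := fun i => max (lo - l N i) 0) (Set.finite_range _).bddAbove i
  have hη0 : ∀ N, 0 ≤ η N := fun N => Real.iSup_nonneg fun i => le_max_right _ _
  have hη : Tendsto η atTop (𝓝 0) := by
    refine Metric.tendsto_nhds.2 fun ζ hζ => ?_
    obtain ⟨q, hq⟩ := exists_nat_one_div_lt hζ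
    filter_upwards [hto.eventually_lt_const (show (0 : ℝ) < (1 / 2) ^ q by positivity)] with N hN
    rw [Real.dist_eq, sub_zero, abs_of_nonneg (hη0 N)]
    have hnot : G N ∉ lowSet N ⌊α * N⌋₊ (lo - 1 / ((q : ℝ) + 1)) := fun hmem => by
      have hs : Summable fun q : ℕ => (1 / 2 : ℝ) ^ q *
          (lowSet N ⌊α * N⌋₊ (edgeLo α - 1 / ((q : ℝ) + 1))).indicator (fun _ => 1) (G N) :=
        summable_geometric_two.of_norm_bounded fun q => edgeTerm_mem q (G N)
      have h1 := hs.le_tsum q fun j _ =>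
        mul_nonneg (by positivity) (Set.indicator_nonneg (fun _ _ => zero_le_one) _)
      rw [Set.indicator_of_mem hmem, mul_one] at h1
      have h2 := hsmall N
      have h3 : 0 ≤ haarDev β a x L (ν N) (G N) := integral_nonneg fun U => abs_nonneg _
      have h4 : (1 / 2 : ℝ) ^ q ≤ edgeDev α (G N) := h1
      simp only [Φ] at h2
      linarith [(hst0 N (G N)).1]
    have hall := hlb N _ hnot
    refine lt_of_le_of_lt (Real.iSup_le (fun i => max_le ?_ (by positivity)) (by positivity)) hq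
    linarith [hall i]
  set l' : (N : ℕ) → Fin N → ℝ := fun N i => max (l N i) lo
  have hd : ∀ N i, |l' N i - l N i| ≤ η N := fun N i => by
    refine le_trans (le_of_eq ?_) (hηi N i)
    simp only [l', ← max_sub_sub_right, sub_self, abs_of_nonneg (le_max_left (0 : ℝ) (lo - l N i))]
    exact max_comm _ _
  refine ⟨l', fun N i => le_max_right _ _, fun q => ?_, fun ε hε => ?_, ?_⟩
  · have hs : 0 < sArg q := zero_lt_one.trans_le (one_le_sArg q)
    rw [Conv1, show ∫ y, hS (sArg q) y ∂mp α = mpR α (sArg q) from integral_mp_inv hα hs]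
    refine tendsto_iff_norm_sub_tendsto_zero.2 ?_
    have hb : Tendsto (fun N => η N + 2 ^ q * (δ N * (δ N + α))) atTop (𝓝 0) := by
      simpa using hη.add (hto.const_mul ((2 : ℝ) ^ q))
    refine squeeze_zero (fun N => norm_nonneg _) (fun N => ?_) hb
    rw [Real.norm_eq_abs]
    refine (abs_sub_le _ (avg (l N) (hS (sArg q))) _).trans (add_le_add ?_ ?_)
    · have e : avg (l' N) (hS (sArg q)) = avg (l N) fun y => hS (sArg q) (max y lo) := rfl
      rw [e]
      refine abs_avg_sub_le _ (hη0 N) fun i => ?_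
      exact (abs_hS_sub_le (one_le_sArg q) _ _).trans (hd N i)
    rw [hls N _ hs]
    have hsum : Summable fun q : ℕ => (1 / 2 : ℝ) ^ q * |trN (res (sArg q) (G N)) - mpR α (sArg q)| :=
      summable_geometric_two.of_norm_bounded fun q => abs_stTerm_le hα q (G N)
    have h1 := hsum.le_tsum q fun j _ => by positivity
    have h2 : (1 / 2 : ℝ) ^ q * |trN (res (sArg q) (G N)) - mpR α (sArg q)| ≤ δ N * (δ N + α) :=
      (h1.trans ((le_add_of_nonneg_right (hst0 N (G N)).2).trans
        (le_add_of_nonneg_right (integral_nonneg fun U => abs_nonneg _)))).trans (hsmall N)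
    have h3 := mul_le_mul_of_nonneg_left h2 (show (0 : ℝ) ≤ 2 ^ q by positivity)
    rwa [← mul_assoc, ← mul_pow, show (2 : ℝ) * (1 / 2) = 1 by norm_num, one_pow, one_mul] at h3
  · filter_upwards [hδ.eventually_lt_const (show (0 : ℝ) < ε / 2 by linarith),
      hη.eventually_lt_const (show (0 : ℝ) < ε / 2 by linarith)] with N hN hN2
    have h1 : |avg (l' N) (fun y => y) - avg (l N) (fun y => y)| ≤ η N := by
      have e : avg (l' N) (fun y => y) = avg (l N) fun y => max y lo := rfl
      rw [e]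
      exact abs_avg_sub_le _ (hη0 N) fun i => hd N i
    rw [hl1 N] at h1
    linarith [hG N, div_nonneg (hΦ0 N (G N)) (hδ0 N).le, (abs_le.1 h1).2]
  · have hb : Tendsto (fun N => β * (|x| * η N) + δ N * (δ N + α)) atTop (𝓝 0) := by
      simpa using ((hη.const_mul |x|).const_mul β).add hto
    refine squeeze_zero (fun N => integral_nonneg fun U => abs_nonneg _) (fun N => ?_) hb
    have hr := (hν N).rowInvariant
    have := hr.prob
    have i1 := Vale.Agent.P166.integrable_pressure hr hβ fun i => a - x * l' N i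
    have i2 := Vale.Agent.P166.integrable_pressure hr hβ fun i => a - x * l N i
    have i3 : Integrable (fun U => |pressure N β (fun i => a - x * l N i) U - L|) (ν N) :=
      (i2.sub (integrable_const L)).abs
    refine le_trans (integral_mono_ae (i1.sub (integrable_const L)).abs
      ((integrable_const (β * (|x| * η N))).add i3) (hr.orth.mono fun U hU => ?_)) ?_
    · refine (abs_sub_le _ (pressure N β (fun i => a - x * l N i) U) _).trans (add_le_add ?_ le_rfl)
      refine abs_pressure_sub_le_unif hβ (mul_nonneg (abs_nonneg x) (hη0 N)) (fun i => ?_) hU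
      rw [show a - x * l' N i - (a - x * l N i) = x * (l N i - l' N i) by ring, abs_mul, abs_sub_comm]
      exact mul_le_mul_of_nonneg_left (hd N i) (abs_nonneg x)
    simp only [Pi.add_apply]
    rw [integral_add (integrable_const _) i3, integral_const, probReal_univ, one_smul, hlp N]
    exact add_le_add le_rfl
      ((le_add_of_nonneg_left (add_nonneg (hst0 N (G N)).1 (hst0 N (G N)).2)).trans (hsmall N))

/-- Near every point of the support there are points of the array. -/
lemma exists_near {μ : Measure ℝ} [IsProbabilityMeasure μ] {l : (N : ℕ) → Fin N → ℝ}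
    (hw : ∀ φ : ℝ →ᵇ ℝ, Conv1 μ l φ) {p : ℝ} (hp : p ∈ μ.support) {η : ℝ} (hη : 0 < η) :
    ∀ᶠ N in atTop, ∃ i, |l N i - p| < η := by
  set φ : ℝ →ᵇ ℝ := BoundedContinuousFunction.ofNormedAddCommGroup
    (fun y => max 0 (1 - |y - p| / η)) (by fun_prop) 1 fun y => by
      rw [Real.norm_eq_abs, abs_of_nonneg (le_max_left _ _)]
      exact max_le zero_le_one (sub_le_self _ (by positivity))
  have happ : ∀ y, φ y = max 0 (1 - |y - p| / η) := fun y => rfl
  have hpos : 0 < ∫ y, φ y ∂μ := by
    rw [integral_pos_iff_support_of_nonneg (f := φ) (fun y => le_max_left _ _) (φ.integrable μ)]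
    refine ((Measure.mem_support_iff_forall p).1 hp _ (Metric.ball_mem_nhds p hη)).trans_le
      (measure_mono fun y hy => ?_)
    rw [Metric.mem_ball, Real.dist_eq] at hy
    rw [Function.mem_support, happ]
    have : |y - p| / η < 1 := (div_lt_one hη).2 hy
    exact (lt_max_of_lt_right (by linarith)).ne'
  filter_upwards [(hw φ).eventually_const_lt hpos] with N hN
  by_contra hc
  push Not at hc
  have : ∀ i, φ (l N i) = 0 := fun i => by
    rw [happ]
    have : 1 ≤ |l N i - p| / η := (one_le_div hη).2 (hc i)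
    exact max_eq_left (by linarith)
  simp [avg, this] at hN

lemma affine_support (hα : 0 < α) (a : ℝ) {x : ℝ} (hx : 0 < x) :
    let μ := (mp α).map fun w => a - x * w
    IsProbabilityMeasure μ ∧ IsCompact μ.support ∧ sSup μ.support = a - x * edgeLo α ∧
      sInf μ.support = a - x * mpHi α := by
  intro μ
  have := isProbabilityMeasure_mp hα
  have hm : Measurable fun w : ℝ => a - x * w := by fun_prop
  obtain ⟨-, h0, hB⟩ := mp_support hα
  have hsub : μ.support ⊆ Set.Icc (a - x * mpHi α) (a - x * edgeLo α) :=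
    Measure.support_subset_of_isClosed isClosed_Icc ((ae_map_iff hm.aemeasurable measurableSet_Icc).2
      ((mp_ae_mem hα).mono fun w hw => ⟨by nlinarith [hw.2], by nlinarith [hw.1]⟩))
  have hmem : ∀ w ∈ (mp α).support, a - x * w ∈ μ.support := fun w hw => by
    refine (Measure.mem_support_iff_forall _).2 fun U hU => ?_
    have := (Measure.mem_support_iff_forall w).1 hw _
      ((by fun_prop : Continuous fun w : ℝ => a - x * w).continuousAt hU)
    exact this.trans_le (Measure.le_map_apply hm.aemeasurable U)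
  have ha : a - x * edgeLo α ∈ μ.support := hmem _ h0
  refine ⟨Measure.isProbabilityMeasure_map hm.aemeasurable,
    isCompact_Icc.of_isClosed_subset Measure.isClosed_support hsub, ?_, ?_⟩
  · exact IsGreatest.csSup_eq ⟨ha, fun y hy => (hsub hy).2⟩
  · exact IsLeast.csInf_eq ⟨hmem _ hB, fun y hy => (hsub hy).1⟩

lemma avg_congr {N : ℕ} {v : Fin N → ℝ} {φ ψ : ℝ → ℝ} (h : ∀ i, φ (v i) = ψ (v i)) :
    avg v φ = avg v ψ := by simp [avg, h]

/-- The clipped affine image of a converging array is admissible. -/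
lemma admissible_clip (hα : 0 < α) (a : ℝ) {x : ℝ} (hx : 0 < x)
    {l : (N : ℕ) → Fin N → ℝ} (hl0 : ∀ N i, edgeLo α ≤ l N i) (hw : ∀ φ : ℝ →ᵇ ℝ, Conv1 (mp α) l φ) :
    Admissible ((mp α).map fun w => a - x * w)
      fun N i => max (a - x * l N i) (a - x * mpHi α) := by
  have := isProbabilityMeasure_mp hα
  set B := mpHi α
  have hB : 0 < B := (mpLo_nonneg α).trans_lt (mpLo_lt_hi hα)
  obtain ⟨-, -, hsup, hinf⟩ := affine_support hα a hx
  set μ := (mp α).map fun w => a - x * w
  set Λc : (N : ℕ) → Fin N → ℝ := fun N i => max (a - x * l N i) (a - x * B)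
  have hsupp0 : edgeLo α ∈ (mp α).support := (mp_support hα).2.1
  have hlt : edgeLo α < B := (edgeLo_facts hα).2.2
  have hsuppB : B ∈ (mp α).support := (mp_support hα).2.2
  refine ⟨fun φ => ?_, ?_, ?_⟩
  · set ψ : ℝ →ᵇ ℝ := φ.compContinuous ⟨fun w => max (a - x * w) (a - x * B), by fun_prop⟩
    have e : ∫ y, φ y ∂μ = ∫ w, ψ w ∂mp α := by
      rw [integral_map (by fun_prop) φ.continuous.aestronglyMeasurable]
      exact integral_congr_ae ((mp_ae_mem hα).mono fun w hw => by
        have : a - x * B ≤ a - x * w := by nlinarith [hw.2]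
        simp [ψ, max_eq_left this])
    rw [e]
    exact hw ψ
  · rw [hsup]
    refine Metric.tendsto_nhds.2 fun η hη => ?_
    filter_upwards [exists_near hw hsupp0 (div_pos hη hx)] with N hN
    obtain ⟨i, hi⟩ := hN
    have hle : (⨆ i, Λc N i) ≤ a - x * edgeLo α := by
      have : Nonempty (Fin N) := ⟨i⟩
      exact ciSup_le fun j => max_le (by nlinarith [hl0 N j]) (by nlinarith)
    have hge : Λc N i ≤ ⨆ i, Λc N i := le_ciSup (Set.finite_range _).bddAbove i
    rw [abs_of_nonneg (sub_nonneg.2 (hl0 N i)), lt_div_iff₀ hx] at hi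
    rw [Real.dist_eq, abs_lt]
    constructor <;> nlinarith [le_max_left (a - x * l N i) (a - x * B)]
  · rw [hinf]
    refine Metric.tendsto_nhds.2 fun η hη => ?_
    filter_upwards [exists_near hw hsuppB (div_pos hη hx)] with N hN
    obtain ⟨i, hi⟩ := hN
    have hge : a - x * B ≤ ⨅ i, Λc N i := by
      have : Nonempty (Fin N) := ⟨i⟩
      exact le_ciInf fun j => le_max_right _ _
    have hle : (⨅ i, Λc N i) ≤ Λc N i := ciInf_le (Set.finite_range _).bddBelow i
    rw [abs_lt] at hi
    rw [Real.dist_eq, abs_lt]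
    have h1 : x * (B - l N i) < η := by
      rw [mul_comm, ← lt_div_iff₀ hx]; linarith [hi.1]
    have h2 : Λc N i ≤ a - x * B + η := max_le (by nlinarith) (by linarith)
    have h3 : Λc N i < a - x * B + η := max_lt (by nlinarith) (by linarith)
    constructor <;> linarith

/-- The pressure of every admissible deterministic spectrum with Haar eigenvectors tends to `L`. -/
theorem deterministic_spectrum (hα : 0 < α) {β : ℝ} (hβ : 0 < β) (a : ℝ) {x : ℝ}
    (hx : 0 < x) {L : ℝ}
    (hlim : Tendsto (fun N => ∫ G, |jPress β (jMat a x G) - L| ∂patLaw N ⌊α * N⌋₊) atTop (𝓝 0))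
    {ν : (N : ℕ) → Measure (Fin N → Fin N → ℝ)} (hν : ∀ N, OrthInvLaw N (ν N))
    {Λ : (N : ℕ) → Fin N → ℝ} (hΛ : Admissible ((mp α).map fun w => a - x * w) Λ) :
    Tendsto (fun N => ∫ U, pressure N β (Λ N) U ∂ν N) atTop (𝓝 L) ∧
      ∀ δ > 0, Tendsto (fun N => ν N {U | δ < |pressure N β (Λ N) U - L|}) atTop (𝓝 0) := by
  have := isProbabilityMeasure_mp hα
  obtain ⟨l, hlo, hq, hl1, hP⟩ := exists_array hα hβ.le a x L hlim hν
  obtain ⟨he0, -, heB⟩ := edgeLo_facts hα
  have hl0 : ∀ N i, 0 ≤ l N i := fun N i => he0.trans (hlo N i)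
  set B := mpHi α
  have hB : 0 < B := (mpLo_nonneg α).trans_lt (mpLo_lt_hi hα)
  obtain ⟨hprob, hcpt, hsup, hinf⟩ := affine_support hα a hx
  set μ := (mp α).map fun w => a - x * w
  have hw : ∀ φ : ℝ →ᵇ ℝ, Conv1 (mp α) l φ :=
    weak_of_stieltjes ((mp_ae_mem hα).mono fun y hy => ⟨he0.trans hy.1, hy.2⟩) hl0 ((hl1 1 one_pos).mono fun _ h => h) hq
  set Λs : (N : ℕ) → Fin N → ℝ := fun N i => a - x * l N i
  set Λc : (N : ℕ) → Fin N → ℝ := fun N i => max (a - x * l N i) (a - x * B)
  have hadm : Admissible μ Λc := admissible_clip hα a hx hlo hw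
  have hdiff : Tendsto (fun N : ℕ => (N : ℝ)⁻¹ * ∑ i, |Λs N i - Λc N i|) atTop (𝓝 0) := by
    set ψ : ℝ →ᵇ ℝ := BoundedContinuousFunction.ofNormedAddCommGroup
      (fun w => min (max w 0) B) (by fun_prop) B fun w => by
        rw [Real.norm_eq_abs, abs_of_nonneg (le_min (le_max_right _ _) hB.le)]
        exact min_le_right _ _
    have e : ∀ N : ℕ, (N : ℝ)⁻¹ * ∑ i, |Λs N i - Λc N i| = x * (avg (l N) (fun y => y) - avg (l N) ψ) :=
      fun N => by
        have h : ∀ i, |Λs N i - Λc N i| = x * (l N i - ψ (l N i)) := fun i => by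
          show |(a - x * l N i) - max (a - x * l N i) (a - x * B)| = x * (l N i - min (max (l N i) 0) B)
          rw [max_eq_left (hl0 N i)]
          rcases le_total (l N i) B with h | h
          · rw [max_eq_left (by nlinarith), min_eq_left h]; simp
          · rw [max_eq_right (by nlinarith), min_eq_right h, abs_of_nonpos (by nlinarith)]; ring
        simp only [h, avg, ← Finset.mul_sum, Finset.sum_sub_distrib]
        ring
    simp only [e]
    have hψ : Tendsto (fun N => avg (l N) ψ) atTop (𝓝 α) := by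
      have := hw ψ
      rwa [Conv1, show ∫ w, ψ w ∂mp α = α from integral_mp_clip hα] at this
    rw [← mul_zero x]
    refine Tendsto.const_mul x (Metric.tendsto_nhds.2 fun ε hε => ?_)
    filter_upwards [hl1 (ε / 2) (by linarith), Metric.tendsto_nhds.1 hψ (ε / 2) (by linarith)] with N h1 h2
    rw [Real.dist_eq, abs_lt] at h2
    rw [Real.dist_eq, sub_zero, abs_lt]
    have h3 : avg (l N) ψ ≤ avg (l N) (fun y => y) := by
      refine mul_le_mul_of_nonneg_left (Finset.sum_le_sum fun i _ => ?_) (by positivity)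
      exact (min_le_left _ _).trans (le_of_eq (max_eq_left (hl0 N i)))
    constructor <;> linarith
  have hL1 : Tendsto (fun N => ∫ U, |pressure N β (Λc N) U - L| ∂ν N) atTop (𝓝 0) := by
    refine Metric.tendsto_nhds.2 fun e he => ?_
    set η := min (e / (4 * β)) (x * (B - edgeLo α) / 2)
    have hη : 0 < η := lt_min (by positivity) (div_pos (mul_pos hx (sub_pos.2 heB)) two_pos)
    obtain ⟨ε, hε, hεN⟩ := hadm.sorted.top_fraction hcpt hη
    rw [hsup] at hεN
    filter_upwards [hεN, (hdiff.const_mul (β / ε)).eventually_lt_const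
        (show β / ε * 0 < e / 4 by rw [mul_zero]; positivity),
      hP.eventually_lt_const (show (0 : ℝ) < e / 4 by linarith), eventually_gt_atTop 0] with N h1 h2 h3 hN
    have hN' : (0 : ℝ) < N := by exact_mod_cast hN
    set π := decr (Λc N)
    have hanti : Antitone (Λc N ∘ π) := antitone_decr _
    have hr := (hν N).rowInvariant
    have := hr.prob
    set Λs' : Fin N → ℝ := Λs N ∘ decr (Λs N)
    set Λc' : Fin N → ℝ := fun i => max (Λs' i) (a - x * B)
    have hs' : Antitone Λs' := antitone_decr _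
    have hc' : Antitone Λc' := fun i j hij => max_le_max (hs' hij) le_rfl
    have hperm : Λc N ∘ π = Λc' := by
      have hcc : Λc' = Λc N ∘ decr (Λs N) := rfl
      rw [hcc]
      exact Tuple.unique_antitone hanti (hcc ▸ hc')
    have htop : ∀ i : Fin N, ((i : ℕ) : ℝ) < ε * N → |Λs' i - Λc' i| ≤ 0 := fun i hi => by
      have hA := h1 hanti i hi
      have hi' := congrFun hperm i
      simp only [Function.comp_apply] at hA hi'
      rw [hi', abs_le] at hA
      have hne : a - x * B < Λc' i := by nlinarith [hA.1, min_le_right (e / (4 * β)) (x * (B - edgeLo α) / 2)]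
      have : Λc' i = Λs' i := max_eq_left (by
        by_contra hcon
        rw [not_le] at hcon
        exact absurd hne (not_lt.2 (max_le hcon.le le_rfl)))
      simp [this]
    have hb := Vale.Agent.P166.integral_abs_sub_le hr hβ.le hN hs' hc' (k := ε * N) (η := 0)
      (by positivity) le_rfl htop
    have hsum : ∑ i, |Λs' i - Λc' i| = ∑ i, |Λs N i - Λc N i| :=
      Equiv.sum_comp (decr (Λs N)) fun i => |Λs N i - Λc N i|
    rw [hsum, mul_zero, zero_add] at hb
    have hperm2 : ∀ (v : Fin N → ℝ) (σ : Equiv.Perm (Fin N)),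
        ∫ U, |pressure N β (v ∘ σ) U - L| ∂ν N = ∫ U, |pressure N β v U - L| ∂ν N := fun v σ => by
      rw [← Vale.Agent.P166.integral_rowPerm hr σ (show Continuous fun U => |pressure N β (v ∘ σ) U - L| from
        ((Vale.Agent.P166.continuous_pressure β (v ∘ σ)).sub continuous_const).abs)]
      simp only [Vale.Agent.P166.pressure_perm]
    have es := hperm2 (Λs N) (decr (Λs N))
    have ec := hperm2 (Λc N) π
    rw [hperm] at ec
    have hi1 := Vale.Agent.P166.integrable_pressure hr hβ.le Λs'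
    have hi2 := Vale.Agent.P166.integrable_pressure hr hβ.le Λc'
    have hle : ∫ U, |pressure N β Λc' U - L| ∂ν N ≤
        (∫ U, |pressure N β Λs' U - pressure N β Λc' U| ∂ν N) + ∫ U, |pressure N β Λs' U - L| ∂ν N := by
      have hA : Integrable (fun U => |pressure N β Λs' U - pressure N β Λc' U|) (ν N) := (hi1.sub hi2).abs
      have hB' : Integrable (fun U => |pressure N β Λs' U - L|) (ν N) := (hi1.sub (integrable_const L)).abs
      rw [← integral_add hA hB']
      refine integral_mono (hi2.sub (integrable_const L)).abs (hA.add hB') fun U => ?_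
      have := abs_sub_le (pressure N β Λc' U) (pressure N β Λs' U) L
      linarith [abs_sub_comm (pressure N β Λc' U) (pressure N β Λs' U)]
    have e2 : β / (ε * N) * ∑ i, |Λs N i - Λc N i| =
        β / ε * ((N : ℝ)⁻¹ * ∑ i, |Λs N i - Λc N i|) := by field_simp
    rw [Real.dist_eq, sub_zero, abs_of_nonneg (integral_nonneg fun U => abs_nonneg _), ← ec]
    rw [e2] at hb
    have h3' : ∫ U, |pressure N β Λs' U - L| ∂ν N < e / 4 := lt_of_eq_of_lt es h3
    linarith
  have hr : ∀ N, RowInvariantLaw N (ν N) := fun N => (hν N).rowInvariant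
  obtain ⟨hmean, hprobL⟩ := P166.Universality.result μ hcpt β hβ Λc Λ hadm hΛ ν hr
  refine ⟨?_, hprobL L fun δ hδ => ?_⟩
  · have hc : Tendsto (fun N => ∫ U, pressure N β (Λc N) U ∂ν N) atTop (𝓝 L) := by
      refine tendsto_iff_norm_sub_tendsto_zero.2 (squeeze_zero (fun N => norm_nonneg _) (fun N => ?_) hL1)
      have := (hr N).prob
      rw [show (∫ U, pressure N β (Λc N) U ∂ν N) - L = ∫ U, (pressure N β (Λc N) U - L) ∂ν N by
        rw [integral_sub (Vale.Agent.P166.integrable_pressure (hr N) hβ.le _) (integrable_const L)]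
        simp]
      exact norm_integral_le_integral_norm _
    simpa using hc.sub hmean
  · have hb : Tendsto (fun N => ENNReal.ofReal (δ⁻¹ * ∫ U, |pressure N β (Λc N) U - L| ∂ν N)) atTop
        (𝓝 0) := by
      have := (ENNReal.continuous_ofReal.tendsto _).comp (hL1.const_mul δ⁻¹)
      simpa [Function.comp_def] using this
    refine tendsto_of_tendsto_of_tendsto_of_le_of_le tendsto_const_nhds hb (fun _ => zero_le) fun N => ?_
    have := (hr N).prob
    refine (measure_mono (t := {U | δ ≤ |pressure N β (Λc N) U - L|}) fun U hU =>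
      show δ ≤ _ from le_of_lt hU).trans ?_
    rw [← ofReal_measureReal (measure_ne_top _ _)]
    refine ENNReal.ofReal_le_ofReal ?_
    rw [le_inv_mul_iff₀ hδ]
    exact mul_meas_ge_le_integral_of_nonneg (Eventually.of_forall fun U => abs_nonneg _)
      ((Vale.Agent.P166.integrable_pressure (hr N) hβ.le _).sub (integrable_const L)).abs _

end Vale.Agent.P166N.Spectrum
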