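import Vale.Agent.P166N.Spectrum.Transfer
import Vale.Agent.P166N.NegativeJump

/-!
The variational formula for deterministic Marchenko-Pastur spectra with Haar eigenvectors.
-/

namespace Vale.Agent.P166N.Spectrum

open MeasureTheory ProbabilityTheory Filter Matrix
open scoped Topology
open Vale.Agent.P157 (RsbParam)
open Vale.Agent.P166 (spin Admissible)
open Vale.Agent.P166N (negParisi)

lemma jPress_jMat_eq (β a x : ℝ) {N M : ℕ} (G : Fin M → Fin N → ℝ) :
    jPress β (jMat a x G) =
      NegativeJump.pressure β (NegativeJump.coupling a x N M G) := by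
  have e : ∀ i j, jMat a x G i j = NegativeJump.coupling a x N M G i j := fun i j => by
    simp [jMat, NegativeJump.coupling, covW_apply, Matrix.one_apply, mul_div_assoc]
  simp only [jPress, NegativeJump.pressure, dotProduct, mulVec, spins, spin, e,
    Finset.mul_sum, mul_assoc, div_eq_inv_mul]

lemma tendsto_jPress {β a x α : ℝ} (hβ : 0 < β) (hx : 0 < x) (hα : 0 < α) :
    ∃ L : ℝ, IsGLB {v | ∃ q0 ls, RsbParam q0 ls ∧ v = negParisi (β * x) α q0 ls} L ∧
      Tendsto (fun N => ∫ G, |jPress β (jMat a x G) - (β * a / 2 + L)| ∂patLaw N ⌊α * N⌋₊)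
        atTop (𝓝 0) := by
  obtain ⟨-, L, hL, -, -, hdev⟩ := Vale.Agent.P166N.NegativeJump.result β a x α hβ hx hα
  refine ⟨L, hL, hdev.congr fun N => ?_⟩
  simp only [jPress_jMat_eq]
  rfl

/-- The orthogonal group carries a probability law invariant under left multiplication. -/
theorem exists_orthInvLaw (N : ℕ) : ∃ ν, OrthInvLaw N ν := by
  let G := Matrix.orthogonalGroup (Fin N) ℝ
  let A := Matrix (Fin N) (Fin N) ℝ
  have hsub : (G : Set A) ⊆ Set.pi Set.univ fun _ => Set.pi Set.univ fun _ => Set.Icc (-1) 1 := by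
    intro U hU i _ j _
    have h : (U * Uᵀ) i i = (1 : A) i i := congrFun₂ ((mem_orthogonalGroup_iff (Fin N) ℝ).1 hU) i i
    rw [Matrix.mul_apply, Matrix.one_apply_eq] at h
    have h1 : U i j * U i j ≤ 1 := h ▸ Finset.single_le_sum (f := fun k => U i k * Uᵀ k i)
      (fun k _ => mul_self_nonneg (U i k)) (Finset.mem_univ j)
    exact ⟨by nlinarith, by nlinarith⟩
  have hcl : IsClosed (G : Set A) := isClosed_unitary
  have hc : IsCompact (G : Set A) :=
    (isCompact_univ_pi fun _ => isCompact_univ_pi fun _ => isCompact_Icc).of_isClosed_subset hcl hsub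
  have : CompactSpace G := isCompact_iff_compactSpace.1 hc
  let _ : MeasurableSpace G := borel G
  have : BorelSpace G := ⟨rfl⟩
  let γ : Measure G := Measure.haarMeasure (⊤ : TopologicalSpace.PositiveCompacts G)
  have : γ.IsMulLeftInvariant :=
    inferInstanceAs (Measure.haarMeasure (⊤ : TopologicalSpace.PositiveCompacts G)).IsMulLeftInvariant
  have hγ : IsProbabilityMeasure γ := ⟨by
    have h := Measure.haarMeasure_self (G := G) (K₀ := ⊤)
    simpa [γ] using h⟩
  let F : G → Fin N → Fin N → ℝ := fun u => of.symm (u : A)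
  have hF : Continuous F := continuous_subtype_val
  refine ⟨γ.map F, Measure.isProbabilityMeasure_map hF.measurable.aemeasurable, ?_, fun O hO => ?_⟩
  · refine (ae_map_iff hF.measurable.aemeasurable ?_).2 (Eventually.of_forall fun u => ?_)
    · exact (isClosed_eq (by fun_prop) continuous_const).measurableSet
    · exact (mem_orthogonalGroup_iff' (Fin N) ℝ).1 u.2
  · let o : G := ⟨O, (mem_orthogonalGroup_iff' (Fin N) ℝ).2 hO⟩
    have hm : Measurable fun U : Fin N → Fin N → ℝ => of.symm (O * of U) :=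
      Continuous.measurable (show Continuous fun U : Fin N → Fin N → ℝ => of.symm (O * of U) from
        continuous_const.matrix_mul continuous_id)
    rw [Measure.map_map hm hF.measurable,
      show (fun U : Fin N → Fin N → ℝ => of.symm (O * of U)) ∘ F = F ∘ fun u => o * u from rfl,
      ← Measure.map_map hF.measurable (measurable_const_mul o), map_mul_left_eq_self]

/-- Some deterministic array satisfies the assumptions of the problem. -/
theorem exists_admissible {α : ℝ} (hα : 0 < α) (a : ℝ) {x : ℝ} (hx : 0 < x) :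
    ∃ Λ, Admissible ((mp α).map fun w => a - x * w) Λ := by
  choose ν hν using exists_orthInvLaw
  obtain ⟨L, -, hlim⟩ := tendsto_jPress (a := a) (show (0 : ℝ) < 1 from one_pos) hx hα
  obtain ⟨l, hlo, hq, hl1, -⟩ := exists_array hα zero_le_one a x _ hlim hν
  have he0 := (edgeLo_facts hα).1
  have := isProbabilityMeasure_mp hα
  exact ⟨_, admissible_clip hα a hx hlo
    (weak_of_stieltjes ((mp_ae_mem hα).mono fun y hy => ⟨he0.trans hy.1, hy.2⟩)
      (fun N i => he0.trans (hlo N i)) ((hl1 1 one_pos).mono fun _ h => h) hq)⟩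

/-- The limiting pressure of every admissible spectrum for a reflected Marchenko-Pastur law. -/
theorem mp_formula {β a x α : ℝ} (hβ : 0 < β) (hx : 0 < x) (hα : 0 < α) :
    let μ := (mp α).map fun w => a - x * w
    IsProbabilityMeasure μ ∧ IsCompact μ.support ∧ (∀ N, ∃ ν, OrthInvLaw N ν) ∧
      (∃ Λ, Admissible μ Λ) ∧
      ∃ L : ℝ, IsGLB {v | ∃ q0 ls, RsbParam q0 ls ∧ v = negParisi (β * x) α q0 ls} L ∧
        ∀ ν : (N : ℕ) → Measure (Fin N → Fin N → ℝ), (∀ N, OrthInvLaw N (ν N)) →
          ∀ Λ : (N : ℕ) → Fin N → ℝ, Admissible μ Λ →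
            Tendsto (fun N => ∫ U, P166.pressure N β (Λ N) U ∂ν N) atTop (𝓝 (β * a / 2 + L)) ∧
            ∀ δ > 0, Tendsto (fun N => ν N {U | δ < |P166.pressure N β (Λ N) U - (β * a / 2 + L)|})
              atTop (𝓝 0) := by
  intro μ
  obtain ⟨hp, hc, -, -⟩ := affine_support hα a hx
  obtain ⟨L, hL, hlim⟩ := tendsto_jPress (a := a) hβ hx hα
  exact ⟨hp, hc, exists_orthInvLaw, exists_admissible hα a hx, L, hL, fun ν hν Λ hΛ =>
    deterministic_spectrum hα hβ a hx hlim hν hΛ⟩

end Vale.Agent.P166N.Spectrum
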