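import Vale.Agent.P166W.Interp

/-!
Gordon's comparison for a product of smoothed indicators.
-/

namespace Vale.Agent.P166N.Spectrum

open MeasureTheory Finset Function
open Vale.Agent.P166W

/-- A smoothed step from one down to zero, with two derivatives. -/
structure Step where
  /-- The function. -/
  ψ : ℝ → ℝ
  /-- Its derivative. -/
  ψ1 : ℝ → ℝ
  /-- Its second derivative. -/
  ψ2 : ℝ → ℝ
  /-- A bound for both derivatives. -/
  C : ℝ
  d1 : ∀ x, HasDerivAt ψ (ψ1 x) x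
  d2 : ∀ x, HasDerivAt ψ1 (ψ2 x) x
  cont : Continuous ψ2
  mem : ∀ x, ψ x ∈ Set.Icc (0 : ℝ) 1
  nonpos : ∀ x, ψ1 x ≤ 0
  b1 : ∀ x, |ψ1 x| ≤ C
  b2 : ∀ x, |ψ2 x| ≤ C

namespace Step

variable (S : Step) {U V : Type*} [Fintype U] [Fintype V] [DecidableEq U] [DecidableEq V]

lemma cont0 : Continuous S.ψ := continuous_iff_continuousAt.2 fun x => (S.d1 x).continuousAt

lemma cont1 : Continuous S.ψ1 := continuous_iff_continuousAt.2 fun x => (S.d2 x).continuousAt

lemma C_nonneg : 0 ≤ S.C := (abs_nonneg _).trans (S.b1 0)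

omit [Fintype U] [DecidableEq U] in
lemma prod_mem (s : Finset U) (f : U → ℝ) : ∏ u ∈ s, S.ψ (f u) ∈ Set.Icc (0 : ℝ) 1 :=
  ⟨prod_nonneg fun u _ => (S.mem _).1, prod_le_one (fun u _ => (S.mem _).1) fun u _ => (S.mem _).2⟩

/-- One block: the smoothed event that some coordinate exceeds the level. -/
noncomputable def blk (w : U → ℝ) : ℝ := 1 - ∏ u, S.ψ (w u)

/-- The gradient of a block. -/
noncomputable def blk1 (w : U → ℝ) (u : U) : ℝ :=
  -((∏ u' ∈ univ.erase u, S.ψ (w u')) * S.ψ1 (w u))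

/-- The Hessian of a block. -/
noncomputable def blk2 (w : U → ℝ) (u u' : U) : ℝ :=
  if u' = u then -((∏ m ∈ univ.erase u, S.ψ (w m)) * S.ψ2 (w u))
  else -((∏ m ∈ (univ.erase u).erase u', S.ψ (w m)) * S.ψ1 (w u') * S.ψ1 (w u))

lemma blk_mem (w : U → ℝ) : S.blk w ∈ Set.Icc (0 : ℝ) 1 := by
  have h := S.prod_mem univ w
  exact ⟨sub_nonneg.2 h.2, sub_le_self _ h.1⟩

lemma blk1_mem (w : U → ℝ) (u : U) : 0 ≤ S.blk1 w u ∧ |S.blk1 w u| ≤ S.C := by
  have h := S.prod_mem (univ.erase u) w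
  refine ⟨neg_nonneg.2 (mul_nonpos_of_nonneg_of_nonpos h.1 (S.nonpos _)), ?_⟩
  rw [blk1, abs_neg, abs_mul, abs_of_nonneg h.1]
  exact (mul_le_of_le_one_left (abs_nonneg _) h.2).trans (S.b1 _)

lemma blk2_abs (w : U → ℝ) (u u' : U) : |S.blk2 w u u'| ≤ S.C + S.C ^ 2 := by
  unfold blk2
  split_ifs
  · have h := S.prod_mem (univ.erase u) w
    rw [abs_neg, abs_mul, abs_of_nonneg h.1]
    nlinarith [mul_le_of_le_one_left (abs_nonneg (S.ψ2 (w u))) h.2, S.b2 (w u)]
  · have h := S.prod_mem ((univ.erase u).erase u') w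
    rw [abs_neg, abs_mul, abs_mul, abs_of_nonneg h.1]
    have := mul_le_mul (S.b1 (w u')) (S.b1 (w u)) (abs_nonneg _) S.C_nonneg
    nlinarith [mul_le_of_le_one_left (mul_nonneg (abs_nonneg (S.ψ1 (w u'))) (abs_nonneg (S.ψ1 (w u)))) h.2,
      S.C_nonneg]

lemma blk_deriv (γ : ℝ → U → ℝ) (γ' : U → ℝ) (s : ℝ)
    (h : ∀ u, HasDerivAt (fun t => γ t u) (γ' u) s) :
    HasDerivAt (fun t => S.blk (γ t)) (∑ u, S.blk1 (γ s) u * γ' u) s := by
  refine ((HasDerivAt.fun_finsetProd (u := univ) fun u _ =>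
    (S.d1 (γ s u)).comp s (h u)).const_sub 1).congr_deriv ?_
  rw [← sum_neg_distrib]
  exact sum_congr rfl fun u _ => by simp only [blk1, smul_eq_mul, Function.comp_apply]; ring

lemma blk1_deriv (u : U) (γ : ℝ → U → ℝ) (γ' : U → ℝ) (s : ℝ)
    (h : ∀ u, HasDerivAt (fun t => γ t u) (γ' u) s) :
    HasDerivAt (fun t => S.blk1 (γ t) u) (∑ u', S.blk2 (γ s) u u' * γ' u') s := by
  refine (((HasDerivAt.fun_finsetProd (u := univ.erase u) fun m _ =>
    (S.d1 (γ s m)).comp s (h m)).mul ((S.d2 (γ s u)).comp s (h u))).neg).congr_deriv ?_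
  simp only [Function.comp_apply, smul_eq_mul]
  rw [← add_sum_erase univ (fun u' => S.blk2 (γ s) u u' * γ' u') (mem_univ u), neg_add, sum_mul,
    ← sum_neg_distrib, add_comm]
  refine congrArg₂ (· + ·) (by simp only [blk2, if_true]; ring) (sum_congr rfl fun m hm => ?_)
  rw [blk2, if_neg (ne_of_mem_erase hm)]
  ring

/-- The smoothed event that every block exceeds the level. -/
noncomputable def gF (z : V × U → ℝ) : ℝ := ∏ v, S.blk fun u => z (v, u)

/-- Its gradient. -/
noncomputable def gF1 (x : V × U) (z : V × U → ℝ) : ℝ :=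
  (∏ v ∈ univ.erase x.1, S.blk fun u => z (v, u)) * S.blk1 (fun u => z (x.1, u)) x.2

/-- Its Hessian. -/
noncomputable def gF2 (x y : V × U) (z : V × U → ℝ) : ℝ :=
  if y.1 = x.1 then (∏ v ∈ univ.erase x.1, S.blk fun u => z (v, u)) * S.blk2 (fun u => z (x.1, u)) x.2 y.2
  else (∏ v ∈ (univ.erase x.1).erase y.1, S.blk fun u => z (v, u)) * S.blk1 (fun u => z (y.1, u)) y.2 *
    S.blk1 (fun u => z (x.1, u)) x.2

omit [Fintype V] [DecidableEq V] in
lemma prod_blk_mem (s : Finset V) (z : V × U → ℝ) :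
    (∏ v ∈ s, S.blk fun u => z (v, u)) ∈ Set.Icc (0 : ℝ) 1 :=
  ⟨prod_nonneg fun v _ => (S.blk_mem _).1, prod_le_one (fun v _ => (S.blk_mem _).1) fun v _ => (S.blk_mem _).2⟩

lemma gF_mem (z : V × U → ℝ) : S.gF z ∈ Set.Icc (0 : ℝ) 1 := S.prod_blk_mem univ z

lemma gF2_nonneg {x y : V × U} (h : y.1 ≠ x.1) (z : V × U → ℝ) : 0 ≤ S.gF2 x y z := by
  rw [gF2, if_neg h]
  exact mul_nonneg (mul_nonneg (S.prod_blk_mem _ z).1 (S.blk1_mem _ _).1) (S.blk1_mem _ _).1

omit [Fintype V] [DecidableEq V] in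
lemma continuous_blk (v : V) : Continuous fun z : V × U → ℝ => S.blk fun u => z (v, u) :=
  continuous_const.sub (continuous_finsetProd _ fun u _ => S.cont0.comp (continuous_apply _))

omit [Fintype V] [DecidableEq V] in
lemma continuous_blk1 (v : V) (u : U) : Continuous fun z : V × U → ℝ => S.blk1 (fun u => z (v, u)) u :=
  ((continuous_finsetProd _ fun m _ => S.cont0.comp (continuous_apply _)).mul
    (S.cont1.comp (continuous_apply _))).neg

lemma tame_gF : Tame (S.gF (U := U) (V := V)) :=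
  Tame.of_bounded (continuous_finsetProd _ fun v _ => S.continuous_blk v) (C := 1) fun z => by
    rw [abs_of_nonneg (S.gF_mem z).1]; exact (S.gF_mem z).2

lemma tame_gF1 (x : V × U) : Tame (S.gF1 x) :=
  Tame.of_bounded ((continuous_finsetProd _ fun v _ => S.continuous_blk v).mul (S.continuous_blk1 _ _))
    (C := S.C) fun z => by
      rw [gF1, abs_mul, abs_of_nonneg (S.prod_blk_mem _ z).1]
      exact (mul_le_of_le_one_left (abs_nonneg _) (S.prod_blk_mem _ z).2).trans (S.blk1_mem _ _).2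

lemma tame_gF2 (x y : V × U) : Tame (S.gF2 x y) := by
  refine Tame.of_bounded ?_ (C := S.C + S.C ^ 2) fun z => ?_
  · unfold gF2
    split_ifs
    · refine (continuous_finsetProd _ fun v _ => S.continuous_blk v).mul ?_
      unfold blk2
      split_ifs
      · exact ((continuous_finsetProd _ fun m _ => S.cont0.comp (continuous_apply _)).mul
          (S.cont.comp (continuous_apply _))).neg
      · exact (((continuous_finsetProd _ fun m _ => S.cont0.comp (continuous_apply _)).mul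
          (S.cont1.comp (continuous_apply _))).mul (S.cont1.comp (continuous_apply _))).neg
    · exact ((continuous_finsetProd _ fun v _ => S.continuous_blk v).mul (S.continuous_blk1 _ _)).mul
        (S.continuous_blk1 _ _)
  · unfold gF2
    split_ifs
    · rw [abs_mul, abs_of_nonneg (S.prod_blk_mem _ z).1]
      exact (mul_le_of_le_one_left (abs_nonneg _) (S.prod_blk_mem _ z).2).trans (S.blk2_abs _ _ _)
    · rw [abs_mul, abs_mul, abs_of_nonneg (S.prod_blk_mem _ z).1]
      have := mul_le_mul (S.blk1_mem (fun u => z (y.1, u)) y.2).2 (S.blk1_mem (fun u => z (x.1, u)) x.2).2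
        (abs_nonneg _) S.C_nonneg
      nlinarith [mul_le_of_le_one_left (mul_nonneg (abs_nonneg (S.blk1 (fun u => z (y.1, u)) y.2))
        (abs_nonneg (S.blk1 (fun u => z (x.1, u)) x.2))) (S.prod_blk_mem ((univ.erase x.1).erase y.1) z).2,
        S.C_nonneg]

lemma chain_gF : Chain (S.gF (U := U) (V := V)) S.gF1 := by
  intro γ γ' s h
  refine (HasDerivAt.fun_finsetProd (u := univ) fun v _ =>
    S.blk_deriv (fun t u => γ t (v, u)) (fun u => γ' (v, u)) s fun u => h (v, u)).congr_deriv ?_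
  rw [Fintype.sum_prod_type]
  refine sum_congr rfl fun v _ => ?_
  rw [smul_eq_mul, mul_sum]
  exact sum_congr rfl fun u _ => by simp only [gF1]; ring

lemma chain_gF1 (x : V × U) : Chain (S.gF1 x) (S.gF2 x) := by
  intro γ γ' s h
  refine ((HasDerivAt.fun_finsetProd (u := univ.erase x.1) fun v _ =>
    S.blk_deriv (fun t u => γ t (v, u)) (fun u => γ' (v, u)) s fun u => h (v, u)).mul
      (S.blk1_deriv x.2 (fun t u => γ t (x.1, u)) (fun u => γ' (x.1, u)) s fun u => h (x.1, u))).congr_deriv ?_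
  rw [Fintype.sum_prod_type, ← add_sum_erase univ _ (mem_univ x.1), add_comm, sum_mul]
  refine congrArg₂ (· + ·) ?_ (sum_congr rfl fun v hv => ?_)
  · rw [mul_sum]
    exact sum_congr rfl fun u _ => by simp only [gF2, if_true]; ring
  · rw [smul_eq_mul, mul_sum, sum_mul]
    exact sum_congr rfl fun u _ => by rw [gF2, if_neg (ne_of_mem_erase hv)]; ring

/-- Gordon's comparison. -/
theorem gordon {ι : Type*} [Fintype ι] (a b : V × U → ι → ℝ) (horth : ∀ x y, ∑ i, a x i * b y i = 0)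
    (hsame : ∀ x y : V × U, y.1 = x.1 → gramDiff a b x y = 0)
    (hdiff : ∀ x y : V × U, y.1 ≠ x.1 → 0 ≤ gramDiff a b x y) :
    ∫ g, S.gF (Z a b 0 g) ∂gauss ι ≤ ∫ g, S.gF (Z a b 1 g) ∂gauss ι := by
  have hm : MonotoneOn (fun t => ∫ g, S.gF (Z a b t g) ∂gauss ι) (Set.Icc 0 1) := by
    refine monotoneOn_of_hasDerivWithinAt_nonneg (convex_Icc 0 1) (continuousOn_interp a b S.tame_gF)
      (f' := fun t => 1 / 2 * ∑ x, ∑ y, gramDiff a b x y * ∫ g, S.gF2 x y (Z a b t g) ∂gauss ι)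
      (fun t ht => ?_) fun t ht => ?_
    all_goals rw [interior_Icc] at ht
    · exact (hasDerivAt_interp a b horth S.tame_gF S.chain_gF S.tame_gF1 S.chain_gF1 S.tame_gF2 ht).hasDerivWithinAt
    · refine mul_nonneg (by norm_num) (sum_nonneg fun x _ => sum_nonneg fun y _ => ?_)
      by_cases hy : y.1 = x.1
      · simp [hsame x y hy]
      · exact mul_nonneg (hdiff x y hy) (integral_nonneg fun g => S.gF2_nonneg hy _)
  exact hm (Set.left_mem_Icc.2 zero_le_one) (Set.right_mem_Icc.2 zero_le_one) zero_le_one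

end Step

end Vale.Agent.P166N.Spectrum
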